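import Crest.Agent.X37.St.Step
import Crest.Agent.X37.LB.Defs

/-!
# Row 37, Steiner potential: the geometric claim of Lemma B
-/

set_option autoImplicit false

namespace Crest.Agent.X37.St

open Finset

variable {V : Type*} [DecidableEq V] {d : V → V → ℝ} {lam : ℝ}

/-- The surgery inside one part `U`. -/
theorem step_part (hd : PM d) {t δ r lam' : ℝ} (ht : 0 < t) (hδ : 0 < δ) (hδ1 : δ ≤ 1)
    (hr : 4 * r ≤ δ * t) (hlam : lam ≤ 48 * t) (hl1 : lam ≤ lam') (hl2 : 2 * t ≤ lam')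
    (U : Finset V) (hU : U.Nonempty) (L : V → V) (net : V → Finset V × ℝ)
    (hnet : ∀ v ∈ U, Tr d lam (net (L v)).1 (net (L v)).2)
    (hcov : ∀ v ∈ U, ∃ x ∈ (net (L v)).1, d v x ≤ r)
    (N : Finset V) (hNU : N ⊆ U) (hsep : ∀ p ∈ N, ∀ q ∈ N, p ≠ q → δ * t ≤ d p q)
    (hpt : ∀ p ∈ N, ∃ y ∈ U, d p y ≤ t ∧ L p ≠ L y) (K : Finset (V × V × ℝ))
    (hK : ∀ k ∈ K, k.1 ∈ U ∧ k.2.1 ∈ U ∧ L k.1 ≠ L k.2.1 ∧ d k.1 k.2.1 ≤ k.2.2 ∧
      k.2.2 + 2 * r ≤ lam')
    (hKc : ∀ T : V → Prop, (∀ k ∈ K, (T (L k.1) ↔ T (L k.2.1))) →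
      ∀ u ∈ U, ∀ v ∈ U, T (L u) → T (L v)) :
    ∃ b : Finset V × ℝ, Tr d lam' b.1 b.2 ∧ (∀ v ∈ U, ∃ x ∈ b.1, d v x ≤ r + 146 * t) ∧
      b.2 + δ * t * N.card / 576 ≤ ∑ g ∈ U.image L, (net g).2 + ∑ k ∈ K, k.2.2 +
        105 * t * K.card + 144 * t * ((U.image L).card - 1) := by
  by_cases h2 : 1 < (U.image L).card
  · obtain ⟨S, c, h1, h3, h4⟩ := step_two hd ht hδ hδ1 hr hlam hl1 hl2 U hU L net hnet hcov N hNU
      hsep hpt K hK hKc
    refine ⟨(S, c), h1, h3, h4.trans ?_⟩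
    have : (2 : ℝ) ≤ (U.image L).card := by exact_mod_cast h2
    nlinarith
  · obtain ⟨u, hu⟩ := hU
    have h1 : ∀ v ∈ U, L v = L u := fun v hv =>
      card_le_one.1 (not_lt.1 h2) _ (mem_image_of_mem L hv) _ (mem_image_of_mem L hu)
    have h3 : U.image L = {L u} := by
      refine eq_singleton_iff_unique_mem.2 ⟨mem_image_of_mem L hu, fun g hg => ?_⟩
      obtain ⟨v, hv, rfl⟩ := mem_image.1 hg
      exact h1 v hv
    have h4 : N = ∅ := by
      refine eq_empty_of_forall_notMem fun p hp => ?_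
      obtain ⟨y, hy, -, hne⟩ := hpt p hp
      exact hne ((h1 p (hNU hp)).trans (h1 y hy).symm)
    refine ⟨net (L u), (hnet u hu).mono_lam hl1, fun v hv => ?_, ?_⟩
    · obtain ⟨x, hx, hvx⟩ := hcov v hv
      exact ⟨x, h1 v hv ▸ hx, by linarith⟩
    · have h5 : 0 ≤ ∑ k ∈ K, k.2.2 :=
        sum_nonneg fun k hk => (hd.nonneg _ _).trans (hK k hk).2.2.2.1
      have h6 : 0 ≤ 105 * t * K.card := by positivity
      rw [h3, h4]
      simp only [card_empty, sum_singleton, card_singleton]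
      push_cast
      linarith

/-- The surgery in all parts of the next partition. -/
theorem step_all [Fintype V] [Nonempty V] (hd : PM d) {t δ r lam' : ℝ} (ht : 0 < t) (hδ : 0 < δ)
    (hδ1 : δ ≤ 1) (hr : 4 * r ≤ δ * t) (hlam : lam ≤ 48 * t) (hl1 : lam ≤ lam')
    (hl2 : 2 * t ≤ lam') (L L' : V → V) (hLL : ∀ u v, L u = L v → L' u = L' v)
    (net : V → Finset V × ℝ) (hnet : ∀ v, Tr d lam (net (L v)).1 (net (L v)).2)
    (hcov : ∀ v, ∃ x ∈ (net (L v)).1, d v x ≤ r)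
    (N : Finset V) (hsep : ∀ p ∈ N, ∀ q ∈ N, p ≠ q → δ * t ≤ d p q)
    (hpt : ∀ p ∈ N, ∃ y, d p y ≤ t ∧ L p ≠ L y ∧ L' p = L' y) (K : Finset (V × V × ℝ))
    (hK : ∀ k ∈ K, L' k.1 = L' k.2.1 ∧ L k.1 ≠ L k.2.1 ∧ d k.1 k.2.1 ≤ k.2.2 ∧
      k.2.2 + 2 * r ≤ lam')
    (hKc : ∀ T : V → Prop, (∀ u v, L u = L v → T u → T v) → (∀ k ∈ K, (T k.1 ↔ T k.2.1)) →
      ∀ u v, L' u = L' v → T u → T v)
    (hKn : K.card + (univ.image L').card ≤ (univ.image L).card) :
    ∃ net' : V → Finset V × ℝ, (∀ v, Tr d lam' (net' (L' v)).1 (net' (L' v)).2) ∧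
      (∀ v, ∃ x ∈ (net' (L' v)).1, d v x ≤ r + 146 * t) ∧
      ∑ g ∈ univ.image L', (net' g).2 + δ * t * N.card / 576 ≤
        ∑ g ∈ univ.image L, (net g).2 + ∑ k ∈ K, k.2.2 +
          249 * t * (((univ.image L).card : ℝ) - 1) := by
  have key := fun g (hg : g ∈ univ.image L') => step_part hd ht hδ hδ1 hr hlam hl1 hl2
    (univ.filter fun v => L' v = g)
    (by obtain ⟨u, -, hu⟩ := mem_image.1 hg; exact ⟨u, mem_filter.2 ⟨mem_univ _, hu⟩⟩) L net
    (fun v _ => hnet v) (fun v _ => hcov v) (N.filter fun v => L' v = g)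
    (filter_subset_filter _ (subset_univ _))
    (fun p hp q hq => hsep p (mem_filter.1 hp).1 q (mem_filter.1 hq).1)
    (fun p hp => by
      obtain ⟨y, h1, h2, h3⟩ := hpt p (mem_filter.1 hp).1
      exact ⟨y, mem_filter.2 ⟨mem_univ _, h3 ▸ (mem_filter.1 hp).2⟩, h1, h2⟩)
    (K.filter fun k => L' k.1 = g)
    (fun k hk => by
      obtain ⟨hk1, hk2⟩ := mem_filter.1 hk
      obtain ⟨h1, h2, h3, h4⟩ := hK k hk1
      exact ⟨mem_filter.2 ⟨mem_univ _, hk2⟩, mem_filter.2 ⟨mem_univ _, h1 ▸ hk2⟩, h2, h3, h4⟩)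
    (fun T hT u hu v hv hTu => by
      have hu' := (mem_filter.1 hu).2
      have hv' := (mem_filter.1 hv).2
      refine (hKc (fun z => L' z = g ∧ T (L z))
        (fun a b e ha => ⟨hLL a b e ▸ ha.1, e ▸ ha.2⟩) (fun k hk => ?_) u v
        (hu'.trans hv'.symm) ⟨hu', hTu⟩).2
      have h1 := (hK k hk).1
      by_cases e : L' k.1 = g
      · rw [hT k (mem_filter.2 ⟨hk, e⟩), h1]
      · simp only [← h1, e, false_and])
  choose! net' h1 h2 h3 using key
  refine ⟨net', fun v => h1 _ (mem_image_of_mem _ (mem_univ v)),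
    fun v => h2 _ (mem_image_of_mem _ (mem_univ v)) v (mem_filter.2 ⟨mem_univ _, rfl⟩), ?_⟩
  have h4 := sum_le_sum h3
  have hex : ∀ g ∈ univ.image L, ∃ u, L u = g := fun g hg => by
    obtain ⟨u, -, hu⟩ := mem_image.1 hg
    exact ⟨u, hu⟩
  choose! s hs using hex
  have himg : ∀ g, (univ.filter fun v => L' v = g).image L =
      (univ.image L).filter fun z => L' (s z) = g := by
    intro g
    ext z
    simp only [mem_image, mem_filter, mem_univ, true_and]
    constructor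
    · rintro ⟨u, hu, rfl⟩
      exact ⟨⟨u, rfl⟩, (hLL _ _ (hs _ (mem_image_of_mem L (mem_univ u)))).trans hu⟩
    · rintro ⟨⟨u, rfl⟩, hu⟩
      exact ⟨u, (hLL _ _ (hs _ (mem_image_of_mem L (mem_univ u)))).symm.trans hu, rfl⟩
  have e1 : ∑ g ∈ univ.image L', ((N.filter fun v => L' v = g).card : ℝ) = N.card := by
    rw [card_eq_sum_card_fiberwise (f := L') (s := N) (t := univ.image L')
      fun v _ => mem_image_of_mem _ (mem_univ v)]
    push_cast; rfl
  have e2 : ∑ g ∈ univ.image L', ((K.filter fun k => L' k.1 = g).card : ℝ) = K.card := by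
    rw [card_eq_sum_card_fiberwise (f := fun k : V × V × ℝ => L' k.1) (s := K)
      (t := univ.image L') fun v _ => mem_image_of_mem _ (mem_univ _)]
    push_cast; rfl
  have e3 : ∑ g ∈ univ.image L', (((univ.image L).filter fun z => L' (s z) = g).card : ℝ) =
      (univ.image L).card := by
    rw [card_eq_sum_card_fiberwise (f := fun z => L' (s z)) (s := univ.image L)
      (t := univ.image L') fun v _ => mem_image_of_mem _ (mem_univ _)]
    push_cast; rfl
  have e4 : ∑ g ∈ univ.image L', ∑ z ∈ (univ.image L).filter fun z => L' (s z) = g, (net z).2 =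
      ∑ z ∈ univ.image L, (net z).2 :=
    sum_fiberwise_of_maps_to (fun v _ => mem_image_of_mem _ (mem_univ _)) _
  have e5 : ∑ g ∈ univ.image L', ∑ k ∈ K.filter fun k => L' k.1 = g, k.2.2 = ∑ k ∈ K, k.2.2 :=
    sum_fiberwise_of_maps_to (fun v _ => mem_image_of_mem _ (mem_univ _)) _
  simp only [himg, sum_add_distrib, ← sum_div, ← mul_sum, sum_sub_distrib, sum_const,
    nsmul_eq_mul, mul_one] at h4
  rw [e1, e2, e3, e4, e5] at h4
  have c1 : 0 < (univ.image L').card :=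
    card_pos.2 ⟨_, mem_image_of_mem _ (mem_univ (Classical.arbitrary V))⟩
  have c2 : (1 : ℝ) ≤ (univ.image L').card := by exact_mod_cast c1
  have c3 : (K.card : ℝ) + (univ.image L').card ≤ (univ.image L).card := by exact_mod_cast hKn
  nlinarith

/-- **The geometric claim of Lemma B.** -/
theorem claim : LB.Claim 150000 := by
  intro V _ _ _ d c s0 del p q J Z h1 h2 h3 hs0 hdel hdel1 hC hqp h0 hnest hch hsep hpt
  have hd : PM d := ⟨h1, h2, h3⟩
  have hmono : ∀ i m u v, c i u = c i v → c (i + m) u = c (i + m) v := by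
    intro i m
    induction m with
    | zero => exact fun _ _ e => e
    | succ m ih => exact fun u v e => hnest _ _ _ (ih u v e)
  have key : ∀ j : ℕ, ∃ net : V → Finset V × ℝ,
      (∀ v, Tr d (2 * (s0 * 2 ^ (j * p + q))) (net (c (j * p) v)).1 (net (c (j * p) v)).2) ∧
      (∀ v, ∃ x ∈ (net (c (j * p) v)).1, d v x ≤ del * (s0 * 2 ^ (j * p + q)) / 4) ∧
      ∑ g ∈ univ.image (c (j * p)), (net g).2 +
        ∑ i ∈ range j, del * (s0 * 2 ^ (i * p + q)) * (Z i).card / 576 ≤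
        ∑ i ∈ range (j * p), 2 * (s0 * 2 ^ i * LB.ncl (c i)) +
          ∑ i ∈ range j, 249 * (s0 * 2 ^ (i * p + q)) * LB.ncl (c (i * p)) := by
    intro j
    induction j with
    | zero =>
      have hinj : Function.Injective (c 0) := fun u v e => h0 u v e
      refine ⟨fun g => ({Function.invFun (c 0) g}, 0), fun v => Tr.single _ _ le_rfl,
        fun v => ⟨v, ?_, ?_⟩, by simp⟩
      · rw [Nat.zero_mul]
        exact mem_singleton.2 (Function.leftInverse_invFun hinj v).symm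
      · rw [h1]; positivity
    | succ j ih =>
      obtain ⟨net, n1, n2, n3⟩ := ih
      obtain ⟨K, k1, k2, k3, k4⟩ := connectors d c hs0 hnest hch (j * p) p
      set t : ℝ := s0 * 2 ^ (j * p + q) with ht
      have ht0 : 0 < t := by positivity
      have hp1 : (1 : ℝ) ≤ 2 ^ p := one_le_pow₀ (by norm_num)
      have hq1 : (1 : ℝ) ≤ 2 ^ q := one_le_pow₀ (by norm_num)
      have ht' : s0 * 2 ^ ((j + 1) * p + q) = t * 2 ^ p := by
        rw [ht, Nat.succ_mul, add_right_comm, pow_add]; ring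
      have ht'' : s0 * 2 ^ (j * p + p) ≤ t * 2 ^ p := by
        rw [ht, pow_add, pow_add]
        have : 0 < s0 * 2 ^ (j * p) * 2 ^ p := by positivity
        nlinarith
      have htt : t ≤ t * 2 ^ p := by nlinarith
      have hdt : del * t ≤ t := by nlinarith
      obtain ⟨net', m1, m2, m3⟩ := step_all (lam' := 2 * (t * 2 ^ p)) (r := del * t / 4) hd ht0
        hdel hdel1 (by linarith) (by linarith) (by linarith) (by linarith) (c (j * p))
        (c (j * p + p)) (hmono _ _) net n1 n2 (Z j) (hsep j)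
        (fun x hx => by simpa only [Nat.succ_mul] using hpt j x hx) K
        (fun k hk => by
          obtain ⟨a1, a2, a3, a4⟩ := k1 k hk
          exact ⟨a1, a2, a3, by linarith⟩) k2 k3
      rw [ht', Nat.succ_mul]
      refine ⟨net', m1, fun v => ?_, ?_⟩
      · obtain ⟨x, hx, hvx⟩ := m2 v
        refine ⟨x, hx, hvx.trans ?_⟩
        have := mul_le_mul_of_nonneg_left hC ht0.le
        nlinarith
      · rw [sum_range_succ, sum_range_succ, sum_range_add, ← ht]
        unfold LB.ncl at n3 ⊢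
        linarith
  obtain ⟨net, n1, -, n3⟩ := key J
  have hn : ∀ i, 0 ≤ LB.ncl (c i) := by
    intro i
    have c1 : 0 < (univ.image (c i)).card :=
      card_pos.2 ⟨_, mem_image_of_mem _ (mem_univ (Classical.arbitrary V))⟩
    have c2 : (1 : ℝ) ≤ (univ.image (c i)).card := by exact_mod_cast c1
    unfold LB.ncl
    linarith
  have a1 : 0 ≤ ∑ g ∈ univ.image (c (J * p)), (net g).2 := by
    refine sum_nonneg fun g hg => ?_
    obtain ⟨v, -, rfl⟩ := mem_image.1 hg
    exact (n1 v).cost_nonneg hd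
  have a2 : 0 ≤ ∑ i ∈ range (J * p), s0 * 2 ^ i * LB.ncl (c i) :=
    sum_nonneg fun i _ => mul_nonneg (by positivity) (hn i)
  have a3 : 0 ≤ ∑ i ∈ range J, s0 * 2 ^ (i * p + q) * LB.ncl (c (i * p)) :=
    sum_nonneg fun i _ => mul_nonneg (by positivity) (hn _)
  have b1 : ∑ i ∈ range J, del * (s0 * 2 ^ (i * p + q)) * (Z i).card / 576 =
      del / 576 * ∑ i ∈ range J, s0 * 2 ^ (i * p + q) * ((Z i).card : ℝ) := by
    rw [mul_sum]; exact sum_congr rfl fun i _ => by ring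
  have b2 : ∑ i ∈ range J, 249 * (s0 * 2 ^ (i * p + q)) * LB.ncl (c (i * p)) =
      249 * ∑ i ∈ range J, s0 * 2 ^ (i * p + q) * LB.ncl (c (i * p)) := by
    rw [mul_sum]; exact sum_congr rfl fun i _ => by ring
  rw [b1, b2, ← mul_sum] at n3
  rw [div_mul_eq_mul_div, le_div_iff₀ hdel]
  nlinarith

end Crest.Agent.X37.St
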