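import Crest.Agent.X37.St.Tr

/-!
# Row 37, Steiner potential: separated points on a network, connectors between levels
-/

set_option autoImplicit false

namespace Crest.Agent.X37.St

open Finset

section Sep

variable {V : Type*} [DecidableEq V] {d : V → V → ℝ} {lam : ℝ}

omit [DecidableEq V] in
theorem near_card_le (hd : PM d) {ι : Type*} (N : Finset ι) (f : ι → V) {σ : ℝ}
    (hsep : ∀ p ∈ N, ∀ q ∈ N, p ≠ q → σ ≤ d (f p) (f q)) (x : V) :
    (N.filter fun p => d (f p) x < σ / 2).card ≤ 1 := by
  rw [card_le_one]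
  intro p hp q hq
  rw [mem_filter] at hp hq
  by_contra hne
  have h1 := hsep p hp.1 q hq.1 hne
  have h2 := hd.tri (f p) x (f q)
  rw [hd.symm x] at h2
  linarith [hp.2, hq.2]

omit [DecidableEq V] in
theorem tent_link (hd : PM d) {ι : Type*} (N : Finset ι) (f : ι → V) {σ : ℝ}
    (hsep : ∀ p ∈ N, ∀ q ∈ N, p ≠ q → σ ≤ d (f p) (f q)) (x y : V) :
    ∑ p ∈ N, |min (d (f p) x) (σ / 2) - min (d (f p) y) (σ / 2)| ≤ 2 * d x y := by
  classical
  set A := (N.filter fun p => d (f p) x < σ / 2) ∪ (N.filter fun p => d (f p) y < σ / 2) with hA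
  have hAN : A ⊆ N := union_subset (filter_subset _ _) (filter_subset _ _)
  have h1 : ∑ p ∈ N, |min (d (f p) x) (σ / 2) - min (d (f p) y) (σ / 2)| =
      ∑ p ∈ A, |min (d (f p) x) (σ / 2) - min (d (f p) y) (σ / 2)| := by
    refine (sum_subset hAN fun p hp hpA => ?_).symm
    simp only [hA, mem_union, mem_filter, hp, true_and, not_or, not_lt] at hpA
    rw [min_eq_right hpA.1, min_eq_right hpA.2, sub_self, abs_zero]
  have h2 : ∑ p ∈ A, |min (d (f p) x) (σ / 2) - min (d (f p) y) (σ / 2)| ≤ A.card • d x y := by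
    refine sum_le_card_nsmul _ _ _ fun p _ => ?_
    refine (abs_min_sub_min_le_max _ _ _ _).trans (max_le ?_ ?_)
    · have h3 := hd.tri (f p) x y
      have h4 := hd.tri (f p) y x
      rw [hd.symm y x] at h4
      rw [abs_le]; constructor <;> linarith
    · rw [sub_self, abs_zero]; exact hd.nonneg x y
  have h3 : A.card ≤ 2 := by
    have := card_union_le (N.filter fun p => d (f p) x < σ / 2) (N.filter fun p => d (f p) y < σ / 2)
    have := near_card_le hd N f hsep x
    have := near_card_le hd N f hsep y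
    rw [hA]
    omega
  have h4 : (A.card : ℝ) ≤ 2 := by exact_mod_cast h3
  rw [nsmul_eq_mul] at h2
  have := hd.nonneg x y
  rw [h1]
  nlinarith

theorem Tr.tent (hd : PM d) {ι : Type*} (N : Finset ι) (f : ι → V) {σ : ℝ}
    (hsep : ∀ p ∈ N, ∀ q ∈ N, p ≠ q → σ ≤ d (f p) (f q)) {S : Finset V} {c : ℝ}
    (h : Tr d lam S c) : ∀ u v : ι → V, (∀ p ∈ N, u p ∈ S ∧ v p ∈ S) →
      ∑ p ∈ N, (min (d (f p) (u p)) (σ / 2) - min (d (f p) (v p)) (σ / 2)) ≤ 2 * c := by
  induction h with
  | single w c hc0 =>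
    intro u v huv
    have : ∑ p ∈ N, (min (d (f p) (u p)) (σ / 2) - min (d (f p) (v p)) (σ / 2)) = 0 := by
      refine sum_eq_zero fun p hp => ?_
      obtain ⟨h1, h2⟩ := huv p hp
      rw [mem_singleton] at h1 h2
      rw [h1, h2, sub_self]
    rw [this]; linarith
  | @leaf S c h x y hx hy l hxy hl ih =>
    intro u v huv
    have h1 := ih (fun p => if u p = y then x else u p) (fun p => if v p = y then x else v p) (by
      intro p hp
      obtain ⟨h1, h2⟩ := huv p hp
      constructor
      · split_ifs with e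
        · exact hx
        · exact (mem_insert.1 h1).resolve_left e
      · split_ifs with e
        · exact hx
        · exact (mem_insert.1 h2).resolve_left e)
    have h2 := tent_link hd N f hsep x y
    have h3 : ∑ p ∈ N, (min (d (f p) (u p)) (σ / 2) - min (d (f p) (v p)) (σ / 2)) ≤
        ∑ p ∈ N, ((min (d (f p) (if u p = y then x else u p)) (σ / 2) -
          min (d (f p) (if v p = y then x else v p)) (σ / 2)) +
          |min (d (f p) x) (σ / 2) - min (d (f p) y) (σ / 2)|) := by
      refine sum_le_sum fun p _ => ?_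
      have a1 := le_abs_self (min (d (f p) x) (σ / 2) - min (d (f p) y) (σ / 2))
      have a2 := neg_abs_le (min (d (f p) x) (σ / 2) - min (d (f p) y) (σ / 2))
      have a3 := abs_nonneg (min (d (f p) x) (σ / 2) - min (d (f p) y) (σ / 2))
      by_cases e1 : u p = y <;> by_cases e2 : v p = y <;> simp only [e1, e2, if_true, if_false] <;>
        linarith
    rw [sum_add_distrib] at h3
    linarith

/-- At least two `σ`-separated points on a network of cost `c`: their number is at most `4c/σ`. -/
theorem Tr.sep_card_two (hd : PM d) {ι : Type*} (N : Finset ι) (f : ι → V) {σ : ℝ} (hσ : 0 ≤ σ)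
    (hsep : ∀ p ∈ N, ∀ q ∈ N, p ≠ q → σ ≤ d (f p) (f q)) {S : Finset V} {c : ℝ}
    (h : Tr d lam S c) (hf : ∀ p ∈ N, f p ∈ S) (h2 : 1 < N.card) : σ * N.card ≤ 4 * c := by
  have hex : ∀ p ∈ N, ∃ q ∈ N, q ≠ p := fun p _ => exists_mem_ne h2 p
  choose! g hgN hg using hex
  have h1 := h.tent hd N f hsep (fun p => f (g p)) f fun p hp => ⟨hf _ (hgN p hp), hf p hp⟩
  have h3 : ∑ p ∈ N, (min (d (f p) (f (g p))) (σ / 2) - min (d (f p) (f p)) (σ / 2)) =
      ∑ _p ∈ N, σ / 2 := by
    refine sum_congr rfl fun p hp => ?_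
    have := hsep p hp (g p) (hgN p hp) (hg p hp).symm
    rw [hd.refl, min_eq_right (by linarith), min_eq_left (by linarith), sub_zero]
  rw [h3, sum_const, nsmul_eq_mul] at h1
  linarith

end Sep

section Conn

variable {V : Type*} [Fintype V] [DecidableEq V]

/-- Merging the classes of a label map along a relation. -/
theorem merge (E : V → V → Prop) : ∀ (n : ℕ) (l : V → V), (univ.image l).card = n →
    ∃ (K : Finset (V × V)) (l' : V → V), (∀ k ∈ K, E k.1 k.2 ∧ l k.1 ≠ l k.2) ∧
      K.card + (univ.image l').card ≤ n ∧ (∀ u v, l u = l v → l' u = l' v) ∧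
      (∀ u v, E u v → l' u = l' v) ∧
      ∀ T : V → Prop, (∀ u v, l u = l v → T u → T v) → (∀ k ∈ K, (T k.1 ↔ T k.2)) →
        ∀ u v, l' u = l' v → T u → T v := by
  intro n
  induction n using Nat.strong_induction_on with
  | _ n ih =>
    intro l hl
    by_cases hex : ∃ u v, E u v ∧ l u ≠ l v
    · obtain ⟨u, v, huv, hne⟩ := hex
      set l1 : V → V := fun w => if l w = l v then l u else l w with hl1
      have hsub : univ.image l1 ⊆ (univ.image l).erase (l v) := by
        intro z hz
        obtain ⟨w, -, rfl⟩ := mem_image.1 hz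
        simp only [hl1]
        split_ifs with e
        · exact mem_erase.2 ⟨hne, mem_image_of_mem _ (mem_univ _)⟩
        · exact mem_erase.2 ⟨e, mem_image_of_mem _ (mem_univ _)⟩
      have hc : (univ.image l1).card + 1 ≤ n := by
        have h1 := card_le_card hsub
        have h2 := card_erase_add_one (mem_image_of_mem l (mem_univ v))
        omega
      obtain ⟨K, l', h1, h2, h3, h4, h5⟩ := ih _ (by omega) l1 rfl
      have hll : ∀ a b, l a = l b → l1 a = l1 b := fun a b e => by simp only [hl1, e]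
      refine ⟨insert (u, v) K, l', ?_, ?_, fun a b e => h3 a b (hll a b e), h4, ?_⟩
      · intro k hk
        rcases mem_insert.1 hk with rfl | hk'
        · exact ⟨huv, hne⟩
        · exact ⟨(h1 k hk').1, fun e => (h1 k hk').2 (hll _ _ e)⟩
      · have := card_insert_le (u, v) K
        omega
      · intro T hT hK
        refine h5 T ?_ fun k hk => hK k (mem_insert_of_mem hk)
        have huvT : T u ↔ T v := hK (u, v) (mem_insert_self _ _)
        intro a b e ha
        simp only [hl1] at e
        split_ifs at e with e1 e2 e2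
        · exact hT a b (e1.trans e2.symm) ha
        · exact hT u b e (huvT.2 (hT a v e1 ha))
        · exact hT v b e2.symm (huvT.1 (hT a u e ha))
        · exact hT a b e ha
    · push Not at hex
      exact ⟨∅, l, by simp, by simp [hl], fun _ _ e => e, hex, fun T hT _ => hT⟩

theorem card_image_le_of_refines {l l' : V → V} (h : ∀ u v, l u = l v → l' u = l' v) :
    (univ.image l').card ≤ (univ.image l).card := by
  have hex : ∀ g ∈ univ.image l', ∃ u, l' u = g := fun g hg => by
    obtain ⟨u, -, hu⟩ := mem_image.1 hg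
    exact ⟨u, hu⟩
  choose! s hs using hex
  refine card_le_card_of_injOn (fun g => l (s g)) (fun g _ => mem_image_of_mem _ (mem_univ _)) ?_
  intro g hg g' hg' e
  have := h _ _ e
  rwa [hs g hg, hs g' hg'] at this

/-- Connectors from level `i0` to level `i0 + m`. -/
theorem connectors [Nonempty V] (d : V → V → ℝ) (c : ℕ → V → V) {s0 : ℝ} (hs0 : 0 < s0)
    (hnest : ∀ i u v, c i u = c i v → c (i + 1) u = c (i + 1) v)
    (hch : ∀ i u v, c i u = c i v →
      Relation.ReflTransGen (fun a b => c i a = c i b ∧ d a b ≤ s0 * 2 ^ i) u v)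
    (i0 m : ℕ) : ∃ K : Finset (V × V × ℝ),
      (∀ k ∈ K, c (i0 + m) k.1 = c (i0 + m) k.2.1 ∧ c i0 k.1 ≠ c i0 k.2.1 ∧ d k.1 k.2.1 ≤ k.2.2 ∧
        k.2.2 ≤ s0 * 2 ^ (i0 + m)) ∧
      (∀ T : V → Prop, (∀ u v, c i0 u = c i0 v → T u → T v) → (∀ k ∈ K, (T k.1 ↔ T k.2.1)) →
        ∀ u v, c (i0 + m) u = c (i0 + m) v → T u → T v) ∧
      K.card + (univ.image (c (i0 + m))).card ≤ (univ.image (c i0)).card ∧
      ∑ k ∈ K, k.2.2 ≤ ∑ i ∈ range m,
        2 * (s0 * 2 ^ (i0 + i) * (((univ.image (c (i0 + i))).card : ℝ) - 1)) := by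
  classical
  have hmono : ∀ m u v, c i0 u = c i0 v → c (i0 + m) u = c (i0 + m) v := by
    intro m
    induction m with
    | zero => exact fun _ _ e => e
    | succ m ih => exact fun u v e => hnest _ _ _ (ih u v e)
  induction m with
  | zero => exact ⟨∅, by simp, fun T hT _ => hT, by simp, by simp⟩
  | succ m ih =>
    obtain ⟨K, h1, h2, h3, h4⟩ := ih
    obtain ⟨K', l', g1, g2, g3, g4, g5⟩ := merge
      (fun a b => c (i0 + m + 1) a = c (i0 + m + 1) b ∧ d a b ≤ s0 * 2 ^ (i0 + m + 1)) _
      (c (i0 + m)) rfl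
    have hl' : ∀ u v, c (i0 + m + 1) u = c (i0 + m + 1) v → l' u = l' v := by
      intro u v e
      have := hch _ u v e
      clear e
      induction this with
      | refl => rfl
      | tail _ hb ih => exact ih.trans (g4 _ _ hb)
    have hl'' : ∀ u v, l' u = l' v → c (i0 + m + 1) u = c (i0 + m + 1) v := by
      intro u v e
      exact g5 (fun w => c (i0 + m + 1) u = c (i0 + m + 1) w)
        (fun a b e' ha => ha.trans (hnest _ _ _ e'))
        (fun k hk => by rw [(g1 k hk).1.1]) u v e rfl
    have hc := card_image_le_of_refines hl''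
    set s : ℝ := s0 * 2 ^ (i0 + m + 1) with hs
    have hs' : s = 2 * (s0 * 2 ^ (i0 + m)) := by rw [hs, pow_succ]; ring
    have hpos : 0 < s0 * 2 ^ (i0 + m) := by positivity
    set K2 : Finset (V × V × ℝ) := K'.image fun k => (k.1, k.2, s) with hK2
    have hK2c : K2.card ≤ K'.card := card_image_le
    refine ⟨K ∪ K2, ?_, ?_, ?_, ?_⟩
    · intro k hk
      rcases mem_union.1 hk with hk | hk
      · obtain ⟨a1, a2, a3, a4⟩ := h1 k hk
        exact ⟨hnest _ _ _ a1, a2, a3, by rw [← add_assoc, ← hs]; linarith⟩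
      · obtain ⟨k', hk', rfl⟩ := mem_image.1 hk
        obtain ⟨⟨a1, a2⟩, a3⟩ := g1 k' hk'
        exact ⟨a1, fun e => a3 (hmono m _ _ e), a2, le_of_eq (by rw [← add_assoc])⟩
    · intro T hT hK u v e hu
      refine g5 T (h2 T hT fun k hk => hK k (mem_union_left _ hk)) (fun k hk => ?_) u v
        (hl' u v e) hu
      exact hK (k.1, k.2, s) (mem_union_right _ (mem_image_of_mem _ hk))
    · have := card_union_le K K2
      rw [← add_assoc]
      omega
    · rw [sum_range_succ]
      have hnn : ∀ k ∈ K2, k.2.2 = s := by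
        intro k hk
        obtain ⟨k', -, rfl⟩ := mem_image.1 hk
        rfl
      have e1 : ∑ k ∈ K ∪ K2, k.2.2 = ∑ k ∈ K, k.2.2 + ∑ k ∈ K2 \ K, k.2.2 := by
        rw [← sum_union disjoint_sdiff, union_sdiff_self_eq_union]
      have e2 : ∑ k ∈ K2 \ K, k.2.2 = (K2 \ K).card * s := by
        rw [sum_congr rfl fun k hk => hnn k (mem_sdiff.1 hk).1, sum_const, nsmul_eq_mul]
      have e3 : (K2 \ K).card + 1 ≤ (univ.image (c (i0 + m))).card := by
        have := card_le_card (sdiff_subset (s := K2) (t := K))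
        have : 0 < (univ.image l').card :=
          card_pos.2 ⟨_, mem_image_of_mem _ (mem_univ (Classical.arbitrary V))⟩
        omega
      have e4 : ((K2 \ K).card : ℝ) ≤ ((univ.image (c (i0 + m))).card : ℝ) - 1 := by
        have : (((K2 \ K).card + 1 : ℕ) : ℝ) ≤ (univ.image (c (i0 + m))).card := by
          exact_mod_cast e3
        push_cast at this
        linarith
      rw [e1, e2, hs']
      nlinarith

end Conn

end Crest.Agent.X37.St
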