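import Mathlib

/-!
# Many leaves (Kleitman-West growth)

A connected graph with `s` vertices of degree different from two has a connected dominating set
`D` whose complement has at least `(s - 1) / 4` vertices.  The set `D` is produced by growth:
start from one vertex and repeatedly insert a vertex adjacent to the current set.
-/

set_option autoImplicit false

namespace Crest.Agent.X37.St

open Finset

variable {B : Type*} [DecidableEq B]

/-- Sets grown from a single vertex by inserting neighbours. -/
inductive Grow (G : SimpleGraph B) : Finset B → Prop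
  | single (v : B) : Grow G {v}
  | insert (D : Finset B) (a y : B) : Grow G D → a ∈ D → G.Adj a y → Grow G (insert y D)

theorem Grow.nonempty {G : SimpleGraph B} {D : Finset B} (h : Grow G D) : D.Nonempty := by
  induction h with
  | single v => exact singleton_nonempty v
  | insert D a y _ _ _ _ => exact insert_nonempty y D

variable [Fintype B] (G : SimpleGraph B) [DecidableRel G.Adj]

/-- Closed neighbourhood. -/
def cnb (D : Finset B) : Finset B := univ.filter fun b => b ∈ D ∨ ∃ a ∈ D, G.Adj a b

/-- Boundary: the neighbours outside `D`. -/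
def lbd (D : Finset B) : Finset B := cnb G D \ D

/-- Boundary vertices without a neighbour outside the closed neighbourhood. -/
def ldead (D : Finset B) : Finset B := (lbd G D).filter fun x => ∀ y, G.Adj x y → y ∈ cnb G D

/-- Neighbours of `x` outside the closed neighbourhood of `D`. -/
def lout (D : Finset B) (x : B) : Finset B := G.neighborFinset x \ cnb G D

/-- Vertices of degree different from two. -/
def lsp : Finset B := univ.filter fun b => G.degree b ≠ 2

/-- The invariant of the growth. -/
def LInv (D : Finset B) : Prop :=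
  (lsp G ∩ cnb G D).card ≤ 3 * (lbd G D).card + (ldead G D).card + 1

variable {G}

theorem mem_cnb {D : Finset B} {b : B} : b ∈ cnb G D ↔ b ∈ D ∨ ∃ a ∈ D, G.Adj a b := by
  simp [cnb]

theorem mem_lbd {D : Finset B} {b : B} : b ∈ lbd G D ↔ b ∉ D ∧ ∃ a ∈ D, G.Adj a b := by
  simp only [lbd, mem_sdiff, mem_cnb]
  tauto

theorem mem_lout {D : Finset B} {x y : B} : y ∈ lout G D x ↔ G.Adj x y ∧ y ∉ cnb G D := by
  simp [lout]

theorem mem_ldead {D : Finset B} {x : B} :
    x ∈ ldead G D ↔ x ∈ lbd G D ∧ ∀ y, G.Adj x y → y ∈ cnb G D := by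
  simp [ldead]

theorem cnb_insert {D : Finset B} {x : B} (hx : x ∈ lbd G D) :
    cnb G (insert x D) = cnb G D ∪ lout G D x := by
  ext b
  have hx' := mem_lbd.1 hx
  simp only [mem_union, mem_lout, mem_cnb, mem_insert]
  constructor
  · rintro ((rfl | h) | ⟨a, rfl | ha, hab⟩)
    · exact Or.inl (Or.inr hx'.2)
    · exact Or.inl (Or.inl h)
    · by_cases hb : b ∈ D ∨ ∃ a ∈ D, G.Adj a b
      · exact Or.inl hb
      · exact Or.inr ⟨hab, hb⟩
    · exact Or.inl (Or.inr ⟨a, ha, hab⟩)
  · rintro ((h | ⟨a, ha, hab⟩) | ⟨h, _⟩)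
    · exact Or.inl (Or.inr h)
    · exact Or.inr ⟨a, Or.inr ha, hab⟩
    · exact Or.inr ⟨x, Or.inl rfl, h⟩

theorem disjoint_cnb_lout (D : Finset B) (x : B) : Disjoint (cnb G D) (lout G D x) :=
  disjoint_left.2 fun _ h h' => (mem_lout.1 h').2 h

theorem lbd_insert {D : Finset B} {x : B} (hx : x ∈ lbd G D) :
    lbd G (insert x D) = (lbd G D).erase x ∪ lout G D x := by
  ext b
  have hxc : x ∈ cnb G D := (mem_sdiff.1 hx).1
  rw [lbd, cnb_insert hx]
  simp only [mem_sdiff, mem_union, mem_insert, mem_erase, lbd, mem_lout, not_or]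
  constructor
  · rintro ⟨h | h, h1, h2⟩
    · exact Or.inl ⟨h1, h, h2⟩
    · exact Or.inr h
  · rintro (⟨h1, h, h2⟩ | h)
    · exact ⟨Or.inl h, h1, h2⟩
    · refine ⟨Or.inr h, ?_, fun hb => h.2 (mem_cnb.2 (Or.inl hb))⟩
      rintro rfl
      exact h.2 hxc

theorem card_lbd_insert {D : Finset B} {x : B} (hx : x ∈ lbd G D) :
    (lbd G (insert x D)).card + 1 = (lbd G D).card + (lout G D x).card := by
  rw [lbd_insert hx, card_union_of_disjoint, card_erase_of_mem hx]
  · have := card_pos.2 ⟨x, hx⟩
    omega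
  · exact disjoint_left.2 fun b hb hb' =>
      (mem_lout.1 hb').2 (mem_sdiff.1 (mem_of_mem_erase hb)).1

theorem card_sp_insert {D : Finset B} {x : B} (hx : x ∈ lbd G D) :
    (lsp G ∩ cnb G (insert x D)).card ≤ (lsp G ∩ cnb G D).card + (lsp G ∩ lout G D x).card := by
  rw [cnb_insert hx, inter_union_distrib_left]
  exact card_union_le _ _

theorem ldead_subset {D : Finset B} {x : B} (hx : x ∈ lbd G D) (hne : (lout G D x).Nonempty) :
    ldead G D ⊆ ldead G (insert x D) := by
  intro b hb
  rw [mem_ldead] at hb ⊢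
  refine ⟨?_, fun y hy => ?_⟩
  · rw [lbd_insert hx]
    refine mem_union_left _ (mem_erase.2 ⟨?_, hb.1⟩)
    rintro rfl
    obtain ⟨y, hy⟩ := hne
    exact (mem_lout.1 hy).2 (hb.2 y (mem_lout.1 hy).1)
  · rw [cnb_insert hx]
    exact mem_union_left _ (hb.2 y hy)

theorem grow_insert {D : Finset B} {x : B} (hD : Grow G D) (hx : x ∈ lbd G D) :
    Grow G (insert x D) := by
  obtain ⟨_, a, ha, hax⟩ := mem_lbd.1 hx
  exact Grow.insert D a x hD ha hax

theorem card_cnb_insert {D : Finset B} {x : B} (hx : x ∈ lbd G D) :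
    (cnb G (insert x D)).card = (cnb G D).card + (lout G D x).card := by
  rw [cnb_insert hx, card_union_of_disjoint (disjoint_cnb_lout D x)]

/-- One growth step. -/
theorem grow_step (hG : G.Preconnected) {D : Finset B} (hD : Grow G D) (hI : LInv G D)
    (hne : cnb G D ≠ univ) :
    ∃ D' : Finset B, Grow G D' ∧ LInv G D' ∧ (cnb G D).card < (cnb G D').card := by
  by_cases h2 : ∃ x ∈ lbd G D, 2 ≤ (lout G D x).card
  · obtain ⟨x, hx, hx2⟩ := h2
    refine ⟨insert x D, grow_insert hD hx, ?_, ?_⟩
    · have h1 := card_lbd_insert hx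
      have h3 := card_sp_insert hx
      have h4 := card_le_card (ldead_subset hx (card_pos.1 (by omega)))
      have h5 : (lsp G ∩ lout G D x).card ≤ (lout G D x).card := card_le_card inter_subset_right
      unfold LInv at hI ⊢
      omega
    · rw [card_cnb_insert hx]; omega
  push Not at h2
  -- a boundary vertex with an outside neighbour
  obtain ⟨x, hx, y, hy⟩ : ∃ x ∈ lbd G D, ∃ y, y ∈ lout G D x := by
    by_contra hcon
    push Not at hcon
    obtain ⟨v, hv⟩ := hD.nonempty
    obtain ⟨w, hw⟩ : ∃ w, w ∉ cnb G D := by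
      by_contra h
      push Not at h
      exact hne (eq_univ_iff_forall.2 h)
    have key : ∀ u, G.Reachable v u → u ∈ cnb G D := by
      intro u hu
      rw [SimpleGraph.reachable_iff_reflTransGen] at hu
      induction hu with
      | refl => exact mem_cnb.2 (Or.inl hv)
      | tail _ hab ih =>
        rename_i a b _
        by_cases ha : a ∈ D
        · exact mem_cnb.2 (Or.inr ⟨a, ha, hab⟩)
        · by_contra hb
          exact hcon a (mem_sdiff.2 ⟨ih, ha⟩) b (mem_lout.2 ⟨hab, hb⟩)
    exact hw (key w (hG v w))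
  have hx1 : lout G D x = {y} := by
    have := h2 x hx
    refine eq_singleton_iff_unique_mem.2 ⟨hy, fun z hz => ?_⟩
    exact card_le_one.1 (by omega) z hz y hy
  have hc1 : (lout G D x).card = 1 := by rw [hx1, card_singleton]
  have h1 := card_lbd_insert hx
  have h3 := card_sp_insert hx
  have hsub := ldead_subset hx ⟨y, hy⟩
  have h4 := card_le_card hsub
  have hcn := card_cnb_insert hx
  have hybd : y ∈ lbd G (insert x D) := by
    rw [lbd_insert hx]; exact mem_union_right _ hy
  have hyc : y ∉ cnb G D := (mem_lout.1 hy).2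
  have hxy : G.Adj x y := (mem_lout.1 hy).1
  have h5 : (lsp G ∩ lout G D x).card ≤ 1 := hc1 ▸ card_le_card inter_subset_right
  -- if a new dead vertex appears, one insertion is enough
  have hdead : ∀ z, z ∈ ldead G (insert x D) → z ∉ ldead G D →
      ∃ D' : Finset B, Grow G D' ∧ LInv G D' ∧ (cnb G D).card < (cnb G D').card := by
    intro z hz hz'
    refine ⟨insert x D, grow_insert hD hx, ?_, by omega⟩
    have : (ldead G D).card < (ldead G (insert x D)).card :=
      card_lt_card ⟨hsub, fun h => hz' (h hz)⟩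
    unfold LInv at hI ⊢
    omega
  by_cases hsp : y ∈ lsp G
  swap
  · refine ⟨insert x D, grow_insert hD hx, ?_, by omega⟩
    have : (lsp G ∩ lout G D x).card = 0 := by
      rw [hx1, card_eq_zero, inter_singleton_of_notMem hsp]
    unfold LInv at hI ⊢
    omega
  by_cases hyd : y ∈ ldead G (insert x D)
  · exact hdead y hyd fun h => hyc (mem_sdiff.1 (mem_ldead.1 h).1).1
  by_cases hold : ∃ x', x' ≠ x ∧ x' ∈ lbd G D ∧ G.Adj x' y
  · obtain ⟨x', hne', hx', hadj⟩ := hold
    have hy' : y ∈ lout G D x' := mem_lout.2 ⟨hadj, hyc⟩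
    refine hdead x' (mem_ldead.2 ⟨?_, fun z hz => ?_⟩) fun h => hyc ((mem_ldead.1 h).2 y hadj)
    · rw [lbd_insert hx]; exact mem_union_left _ (mem_erase.2 ⟨hne', hx'⟩)
    · rw [cnb_insert hx]
      by_cases hzc : z ∈ cnb G D
      · exact mem_union_left _ hzc
      · have hz' : z ∈ lout G D x' := mem_lout.2 ⟨hz, hzc⟩
        have := h2 x' hx'
        have hzy : z = y := card_le_one.1 (by omega) z hz' y hy'
        exact mem_union_right _ (hzy ▸ hy)
  push Not at hold
  -- all neighbours of `y` other than `x` are outside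
  have hout : lout G (insert x D) y = (G.neighborFinset y).erase x := by
    ext z
    simp only [mem_lout, mem_erase, SimpleGraph.mem_neighborFinset]
    constructor
    · rintro ⟨h, h'⟩
      refine ⟨?_, h⟩
      rintro rfl
      exact h' (mem_cnb.2 (Or.inl (mem_insert_self _ _)))
    · rintro ⟨hzx, h⟩
      refine ⟨h, ?_⟩
      rw [cnb_insert hx, hx1, mem_union, mem_singleton]
      rintro (hz | rfl)
      · by_cases hzD : z ∈ D
        · exact hyc (mem_cnb.2 (Or.inr ⟨z, hzD, h.symm⟩))
        · exact hold z hzx (mem_sdiff.2 ⟨hz, hzD⟩) h.symm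
      · exact G.irrefl h
  have hdeg : (lout G (insert x D) y).card + 1 = G.degree y := by
    have hxm : x ∈ G.neighborFinset y := (G.mem_neighborFinset y x).2 hxy.symm
    rw [hout, card_erase_of_mem hxm, SimpleGraph.card_neighborFinset_eq_degree]
    have : 0 < G.degree y := by
      rw [← SimpleGraph.card_neighborFinset_eq_degree]; exact card_pos.2 ⟨x, hxm⟩
    omega
  have hpos : (lout G (insert x D) y).Nonempty := by
    by_contra h
    rw [not_nonempty_iff_eq_empty] at h
    refine hyd (mem_ldead.2 ⟨hybd, fun z hz => ?_⟩)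
    by_contra hz'
    have : z ∈ lout G (insert x D) y := mem_lout.2 ⟨hz, hz'⟩
    rw [h] at this
    exact notMem_empty _ this
  have hne2 : G.degree y ≠ 2 := by simpa [lsp] using hsp
  have hge : 2 ≤ (lout G (insert x D) y).card := by
    have := card_pos.2 hpos
    omega
  refine ⟨insert y (insert x D), grow_insert (grow_insert hD hx) hybd, ?_, ?_⟩
  · have g1 := card_lbd_insert hybd
    have g3 := card_sp_insert hybd
    have g4 := card_le_card (ldead_subset hybd hpos)
    have g5 : (lsp G ∩ lout G (insert x D) y).card ≤ (lout G (insert x D) y).card :=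
      card_le_card inter_subset_right
    unfold LInv at hI ⊢
    omega
  · rw [card_cnb_insert hybd]; omega

theorem linv_single (v : B) : LInv G {v} := by
  unfold LInv
  have h1 : (lsp G ∩ cnb G {v}).card ≤ (cnb G {v}).card := card_le_card inter_subset_right
  have h2 : (cnb G {v}).card ≤ (lbd G {v}).card + 1 := by
    have := card_le_card_sdiff_add_card (s := cnb G {v}) (t := {v})
    simpa [lbd] using this
  omega

/-- **Many leaves**, growth form. -/
theorem many_leaves_grow (hG : G.Connected) :
    ∃ D : Finset B, Grow G D ∧ (∀ b, b ∉ D → ∃ a ∈ D, G.Adj a b) ∧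
      (univ.filter fun b => G.degree b ≠ 2).card ≤ 4 * Dᶜ.card + 1 := by
  obtain ⟨v⟩ := hG.nonempty
  have key : ∀ m : ℕ, ∀ D : Finset B, Grow G D → LInv G D →
      Fintype.card B ≤ (cnb G D).card + m →
      ∃ D' : Finset B, Grow G D' ∧ LInv G D' ∧ cnb G D' = univ := by
    intro m
    induction m with
    | zero =>
      intro D hD hI hm
      exact ⟨D, hD, hI, (card_eq_iff_eq_univ _).1 (le_antisymm (card_le_univ _) (by simpa using hm))⟩
    | succ m ih =>
      intro D hD hI hm
      by_cases hne : cnb G D = univ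
      · exact ⟨D, hD, hI, hne⟩
      · obtain ⟨D', h1, h2, h3⟩ := grow_step hG.preconnected hD hI hne
        exact ih D' h1 h2 (by omega)
  obtain ⟨D, hD, hI, hu⟩ := key (Fintype.card B) {v} (Grow.single v) (linv_single v) (by omega)
  refine ⟨D, hD, fun b hb => ?_, ?_⟩
  · have : b ∈ cnb G D := hu ▸ mem_univ b
    exact (mem_cnb.1 this).resolve_left hb
  · have h1 : lbd G D = Dᶜ := by rw [lbd, hu, compl_eq_univ_sdiff]
    have h2 : (ldead G D).card ≤ (lbd G D).card := card_le_card (filter_subset _ _)
    unfold LInv at hI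
    rw [hu, inter_univ, h1] at hI
    rw [h1] at h2
    unfold lsp at hI
    omega

omit [Fintype B] [DecidableRel G.Adj] in
/-- A grown set induces a connected subgraph. -/
theorem Grow.connected {D : Finset B} (h : Grow G D) : (G.induce (D : Set B)).Connected := by
  induction h with
  | single v =>
    have : Nonempty ((({v} : Finset B) : Set B)) := ⟨⟨v, by simp⟩⟩
    refine ⟨fun a b => ?_⟩
    have : a = b := Subtype.ext (by
      have ha := a.2
      have hb := b.2
      simp only [coe_singleton, Set.mem_singleton_iff] at ha hb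
      rw [ha, hb])
    rw [this]
  | insert D a y _ ha hay ih =>
    have hsub : (D : Set B) ⊆ ((Insert.insert y D : Finset B) : Set B) := by
      intro z hz; simp only [coe_insert]; exact Or.inr hz
    have hya : y ∈ ((Insert.insert y D : Finset B) : Set B) := by simp
    have key : ∀ z : ((Insert.insert y D : Finset B) : Set B),
        (G.induce ((Insert.insert y D : Finset B) : Set B)).Reachable ⟨a, hsub ha⟩ z := by
      rintro ⟨z, hz⟩
      have hz' : z = y ∨ z ∈ D := by simpa using hz
      rcases hz' with rfl | hzD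
      · exact SimpleGraph.Adj.reachable (by simpa using hay)
      · exact (ih.preconnected ⟨a, ha⟩ ⟨z, hzD⟩).map (SimpleGraph.induceHomOfLE G hsub).toHom
    have : Nonempty ((Insert.insert y D : Finset B) : Set B) := ⟨⟨y, hya⟩⟩
    exact ⟨fun p q => (key p).symm.trans (key q)⟩

/-- **Many leaves**. -/
theorem many_leaves_graph (hG : G.Connected) :
    ∃ D : Finset B, D.Nonempty ∧ (G.induce (D : Set B)).Connected ∧
      (∀ b, b ∉ D → ∃ a ∈ D, G.Adj a b) ∧
      (univ.filter fun b => G.degree b ≠ 2).card ≤ 4 * Dᶜ.card + 1 := by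
  obtain ⟨D, h1, h2, h3⟩ := many_leaves_grow hG
  exact ⟨D, h1.nonempty, h1.connected, h2, h3⟩

/-- **Many leaves**, Finset form with an arbitrary growth-closed predicate `P`. -/
theorem many_leaves {A : Type*} [DecidableEq A] (B : Finset A) (hB : B.Nonempty)
    (adj : A → A → Prop) [DecidableRel adj] (hs : ∀ a b, adj a b → adj b a)
    (hi : ∀ a, ¬ adj a a)
    (conn : ∀ D : Finset A, D ⊆ B → D.Nonempty → D ≠ B → ∃ a ∈ D, ∃ b ∈ B, b ∉ D ∧ adj a b)
    (P : Finset A → Prop) (h0 : ∀ a ∈ B, P {a})
    (hstep : ∀ D : Finset A, D ⊆ B → ∀ a ∈ D, ∀ b ∈ B, b ∉ D → adj a b → P D → P (insert b D)) :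
    ∃ D : Finset A, D ⊆ B ∧ P D ∧ (∀ b ∈ B, b ∉ D → ∃ a ∈ D, adj a b) ∧
      (B.filter fun a => (B.filter (adj a)).card ≠ 2).card ≤ 4 * (B \ D).card + 4 := by
  classical
  let G : SimpleGraph B :=
    { Adj := fun a b => adj a b
      symm := ⟨fun a b h => hs _ _ h⟩
      loopless := ⟨fun a h => hi _ h⟩ }
  have hG : G.Connected := by
    obtain ⟨v, hv⟩ := hB
    have : Nonempty B := ⟨⟨v, hv⟩⟩
    have key : ∀ w : B, G.Reachable ⟨v, hv⟩ w := by
      by_contra hcon
      push Not at hcon
      obtain ⟨w, hw⟩ := hcon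
      obtain ⟨a, ha, b, hb, hbD, hab⟩ :=
        conn (B.filter fun a => ∃ h : a ∈ B, G.Reachable ⟨v, hv⟩ ⟨a, h⟩) (filter_subset _ _)
          ⟨v, mem_filter.2 ⟨hv, hv, SimpleGraph.Reachable.refl _⟩⟩ (by
            intro h
            have hw' : (w : A) ∈ B.filter fun a => ∃ h : a ∈ B, G.Reachable ⟨v, hv⟩ ⟨a, h⟩ := by
              rw [h]; exact w.2
            obtain ⟨_, _, h2⟩ := mem_filter.1 hw'
            exact hw h2)
      obtain ⟨_, ha', hr⟩ := mem_filter.1 ha
      refine hbD (mem_filter.2 ⟨hb, hb, hr.trans ?_⟩)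
      exact SimpleGraph.Adj.reachable (show G.Adj ⟨a, ha'⟩ ⟨b, hb⟩ from hab)
    exact ⟨fun p q => (key p).symm.trans (key q)⟩
  obtain ⟨D, h1, h2, h3⟩ := many_leaves_grow hG
  have hsub : ∀ E : Finset B, E.map (Function.Embedding.subtype _) ⊆ B := by
    intro E a ha
    obtain ⟨x, _, rfl⟩ := mem_map.1 ha
    exact x.2
  refine ⟨D.map (Function.Embedding.subtype _), hsub D, ?_, ?_, ?_⟩
  · clear h2 h3
    induction h1 with
    | single v => rw [map_singleton]; exact h0 _ v.2
    | insert D a y _ ha hay ih =>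
      by_cases hy : y ∈ D
      · rw [insert_eq_of_mem hy]; exact ih
      · rw [map_insert]
        exact hstep _ (hsub D) a (mem_map_of_mem _ ha) y y.2
          (fun h => hy ((mem_map' _).1 h)) hay ih
  · intro b hb hbD
    obtain ⟨a, ha, hab⟩ := h2 ⟨b, hb⟩ fun h => hbD (mem_map_of_mem (Function.Embedding.subtype _) h)
    exact ⟨a, mem_map_of_mem _ ha, hab⟩
  · have e1 : (B \ D.map (Function.Embedding.subtype _)) =
        Dᶜ.map (Function.Embedding.subtype _) := by
      ext a
      simp only [mem_sdiff, mem_map, mem_compl, Function.Embedding.coe_subtype]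
      constructor
      · rintro ⟨ha, h⟩
        exact ⟨⟨a, ha⟩, fun h' => h ⟨⟨a, ha⟩, h', rfl⟩, rfl⟩
      · rintro ⟨x, hx, rfl⟩
        exact ⟨x.2, fun ⟨y, hy, h⟩ => hx (Subtype.ext h ▸ hy)⟩
    have e2 : ∀ x : B, (B.filter (adj x)).card = G.degree x := by
      intro x
      rw [← SimpleGraph.card_neighborFinset_eq_degree,
        ← card_map (Function.Embedding.subtype (· ∈ B))]
      congr 1
      ext a
      simp only [mem_filter, mem_map, SimpleGraph.mem_neighborFinset,
        Function.Embedding.coe_subtype]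
      constructor
      · rintro ⟨ha, h⟩
        exact ⟨⟨a, ha⟩, h, rfl⟩
      · rintro ⟨y, hy, rfl⟩
        exact ⟨y.2, hy⟩
    have e3 : (B.filter fun a => (B.filter (adj a)).card ≠ 2) =
        (univ.filter fun b : B => G.degree b ≠ 2).map (Function.Embedding.subtype _) := by
      ext a
      simp only [mem_filter, mem_map, mem_univ, true_and, Function.Embedding.coe_subtype]
      constructor
      · rintro ⟨ha, h⟩
        exact ⟨⟨a, ha⟩, by rw [← e2]; exact h, rfl⟩
      · rintro ⟨y, hy, rfl⟩
        exact ⟨y.2, by rw [e2]; exact hy⟩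
    rw [e1, e3, card_map, card_map]
    omega

end Crest.Agent.X37.St
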