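import Crest.Agent.X37.St.Conn
import Crest.Agent.X37.St.Leaves

/-!
# Row 37, Steiner potential: the surgery inside one part of the next partition
-/

set_option autoImplicit false

namespace Crest.Agent.X37.St

open Finset

variable {V : Type*} [DecidableEq V] {d : V → V → ℝ} {lam : ℝ}

/-- Keeping a connected dominating family of pieces gives one network. -/
theorem grow_net {α ι : Type*} [DecidableEq α] (hd : PM d) (hlam : 0 ≤ lam) (B : Finset α)
    (hB : B.Nonempty) (pc : α → Finset V) (co : α → ℝ) (hT : ∀ b ∈ B, Tr d lam (pc b) (co b))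
    (F : α → α → Prop) (hFs : ∀ a b, F a b → F b a) (hFi : ∀ a, ¬ F a a)
    (hF : ∀ a b, F a b → (pc a ∩ pc b).Nonempty) (X : Finset ι) (e1 e2 : ι → α) (w : ι → ℝ)
    (hX : ∀ k ∈ X, e1 k ≠ e2 k ∧ w k ≤ lam ∧ ∃ x ∈ pc (e1 k), ∃ y ∈ pc (e2 k), d x y ≤ w k)
    (adj : α → α → Prop) [DecidableRel adj]
    (hadj : ∀ a b, adj a b ↔ F a b ∨ ∃ k ∈ X, (a = e1 k ∧ b = e2 k) ∨ (a = e2 k ∧ b = e1 k))
    (conn : ∀ D : Finset α, D ⊆ B → D.Nonempty → D ≠ B → ∃ a ∈ D, ∃ b ∈ B, b ∉ D ∧ adj a b)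
    (keep : Finset α) (hk : keep ⊆ B) :
    ∃ D : Finset α, D ⊆ B ∧ keep ⊆ D ∧
      Tr d lam (D.biUnion pc) (∑ b ∈ D, co b + ∑ k ∈ X, w k) ∧
      (∀ b ∈ B, b ∉ D → ∃ a ∈ D, adj a b) ∧
      (B.filter fun a => (B.filter (adj a)).card ≠ 2).card ≤
        4 * ((B \ D).card + keep.card) + 4 := by
  classical
  have hw : ∀ k ∈ X, 0 ≤ w k := fun k hk => by
    obtain ⟨-, -, x, -, y, -, h⟩ := hX k hk
    exact (hd.nonneg x y).trans h
  let P : Finset α → Prop := fun D => Tr d lam (D.biUnion pc)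
    (∑ b ∈ D, co b + ∑ k ∈ X.filter (fun k => e1 k ∈ D ∧ e2 k ∈ D), w k)
  have hstep : ∀ D : Finset α, D ⊆ B → ∀ a ∈ D, ∀ b ∈ B, b ∉ D → adj a b → P D →
      P (insert b D) := by
    intro D hD a ha b hb hbD hab hP
    have hsub : X.filter (fun k => e1 k ∈ D ∧ e2 k ∈ D) ⊆
        X.filter (fun k => e1 k ∈ insert b D ∧ e2 k ∈ insert b D) := by
      intro k hk
      rw [mem_filter] at hk ⊢
      exact ⟨hk.1, mem_insert_of_mem hk.2.1, mem_insert_of_mem hk.2.2⟩
    have key : ∀ x ∈ pc a, ∀ y ∈ pc b, ∀ l, d x y ≤ l → l ≤ lam →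
        ∑ k ∈ X.filter (fun k => e1 k ∈ D ∧ e2 k ∈ D), w k + l ≤
          ∑ k ∈ X.filter (fun k => e1 k ∈ insert b D ∧ e2 k ∈ insert b D), w k →
        P (insert b D) := by
      intro x hx y hy l hxy hl hle
      have h1 := (hT b hb).glue hd hP (mem_biUnion.2 ⟨a, ha, hx⟩) hy hxy hl
      show Tr d lam _ _
      rw [biUnion_insert, union_comm, sum_insert hbD]
      exact h1.mono (by linarith)
    have key2 : ∀ k ∈ X, ¬ (e1 k ∈ D ∧ e2 k ∈ D) → e1 k ∈ insert b D → e2 k ∈ insert b D →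
        ∑ k ∈ X.filter (fun k => e1 k ∈ D ∧ e2 k ∈ D), w k + w k ≤
          ∑ k ∈ X.filter (fun k => e1 k ∈ insert b D ∧ e2 k ∈ insert b D), w k := by
      intro k hk hn h1 h2
      rw [add_comm, ← sum_insert (by rw [mem_filter]; exact fun h => hn h.2)]
      refine sum_le_sum_of_subset_of_nonneg ?_ fun j hj _ => hw j (mem_filter.1 hj).1
      exact insert_subset (mem_filter.2 ⟨hk, h1, h2⟩) hsub
    rcases (hadj a b).1 hab with h | ⟨k, hk, ⟨rfl, rfl⟩ | ⟨rfl, rfl⟩⟩
    · obtain ⟨x, hx⟩ := hF a b h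
      rw [mem_inter] at hx
      refine key x hx.1 x hx.2 0 (hd.refl x).le hlam ?_
      rw [add_zero]
      exact sum_le_sum_of_subset_of_nonneg hsub fun j hj _ => hw j (mem_filter.1 hj).1
    · obtain ⟨-, h2, x, hx, y, hy, hxy⟩ := hX k hk
      exact key x hx y hy _ hxy h2
        (key2 k hk (fun h => hbD h.2) (mem_insert_of_mem ha) (mem_insert_self _ _))
    · obtain ⟨-, h2, x, hx, y, hy, hxy⟩ := hX k hk
      exact key y hy x hx _ (by rwa [hd.symm]) h2
        (key2 k hk (fun h => hbD h.1) (mem_insert_self _ _) (mem_insert_of_mem ha))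
  obtain ⟨D, hD, hP, hdom, hcard⟩ := many_leaves B hB adj
    (fun a b h => by
      rw [hadj] at h ⊢
      rcases h with h | ⟨k, hk, h | h⟩
      · exact Or.inl (hFs a b h)
      · exact Or.inr ⟨k, hk, Or.inr ⟨h.2, h.1⟩⟩
      · exact Or.inr ⟨k, hk, Or.inl ⟨h.2, h.1⟩⟩)
    (fun a h => by
      rcases (hadj a a).1 h with h | ⟨k, hk, h | h⟩
      · exact hFi a h
      · exact (hX k hk).1 (h.1.symm.trans h.2)
      · exact (hX k hk).1 (h.2.symm.trans h.1))
    conn P (fun a ha => by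
      show Tr d lam _ _
      rw [singleton_biUnion, sum_singleton]
      exact (hT a ha).mono (le_add_of_nonneg_right
        (sum_nonneg fun j hj => hw j (mem_filter.1 hj).1))) hstep
  have hadd : ∀ K : Finset α, K ⊆ B → P (D ∪ K) := by
    intro K
    induction K using Finset.induction_on with
    | empty => intro _; rwa [union_empty]
    | insert b K hbK ih =>
      intro hK
      have h1 := ih ((subset_insert _ _).trans hK)
      have hbB : b ∈ B := hK (mem_insert_self _ _)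
      rw [union_insert]
      by_cases hb : b ∈ D ∪ K
      · rwa [insert_eq_of_mem hb]
      · obtain ⟨a, ha, hab⟩ := hdom b hbB fun h => hb (mem_union_left _ h)
        exact hstep _ (union_subset hD ((subset_insert _ _).trans hK)) a (mem_union_left _ ha) b
          hbB hb hab h1
  refine ⟨D ∪ keep, union_subset hD hk, subset_union_right, ?_, ?_, ?_⟩
  · refine (hadd keep hk).mono ?_
    have := sum_le_sum_of_subset_of_nonneg
      (filter_subset (fun k => e1 k ∈ D ∪ keep ∧ e2 k ∈ D ∪ keep) X) fun j hj _ => hw j hj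
    linarith
  · intro b hb hbD
    obtain ⟨a, ha, hab⟩ := hdom b hb fun h => hbD (mem_union_left _ h)
    exact ⟨a, mem_union_left _ ha, hab⟩
  · have h1 : B \ D ⊆ (B \ (D ∪ keep)) ∪ keep := by
      intro b hb
      simp only [mem_sdiff, mem_union] at hb ⊢
      tauto
    have h2 := card_le_card h1
    have h3 := card_union_le (B \ (D ∪ keep)) keep
    omega

/-- Degree count in the graph of pieces. -/
theorem count_special {α : Type*} [DecidableEq α] (B M En : Finset α) (hM : M ⊆ B)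
    (F : α → α → Prop) [DecidableRel F] (π : α → α) (hπ : ∀ a ∈ M, π a ∈ B ∧ ¬ F a (π a))
    (adj : α → α → Prop) [DecidableRel adj] (hF : ∀ a b, F a b → adj a b)
    (hL : ∀ a ∈ M, 2 ≤ (B.filter (F a)).card → adj a (π a))
    (hadj : ∀ a b, adj a b → F a b ∨ (2 ≤ (B.filter (F a)).card) ∨
      (a ∈ (M.filter fun a => 2 ≤ (B.filter (F a)).card).image π) ∨ a ∈ En) :
    M.card ≤ 3 * (B.filter fun a => (B.filter (adj a)).card ≠ 2).card + En.card := by
  set Sp := B.filter fun a => (B.filter (adj a)).card ≠ 2 with hSp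
  set M2 := M.filter fun a => 2 ≤ (B.filter (F a)).card with hM2
  have h1 : M2 ⊆ Sp := by
    intro a ha
    obtain ⟨haM, ha2⟩ := mem_filter.1 ha
    refine mem_filter.2 ⟨hM haM, ?_⟩
    have hsub : insert (π a) (B.filter (F a)) ⊆ B.filter (adj a) := by
      refine insert_subset (mem_filter.2 ⟨(hπ a haM).1, hL a haM ha2⟩) ?_
      intro b hb
      exact mem_filter.2 ⟨(mem_filter.1 hb).1, hF _ _ (mem_filter.1 hb).2⟩
    have := card_le_card hsub
    rw [card_insert_of_notMem fun h => (hπ a haM).2 (mem_filter.1 h).2] at this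
    omega
  have h2 : M ⊆ M2 ∪ Sp ∪ M2.image π ∪ En := by
    intro a ha
    simp only [mem_union]
    by_contra hn
    push Not at hn
    obtain ⟨⟨⟨n1, n2⟩, n3⟩, n4⟩ := hn
    have a2 : ¬ 2 ≤ (B.filter (F a)).card := fun h => n1 (mem_filter.2 ⟨ha, h⟩)
    apply n2
    refine mem_filter.2 ⟨hM ha, ?_⟩
    have hsub : B.filter (adj a) ⊆ B.filter (F a) := by
      intro b hb
      refine mem_filter.2 ⟨(mem_filter.1 hb).1, ?_⟩
      rcases hadj a b (mem_filter.1 hb).2 with h | h | h | h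
      · exact h
      · exact absurd h a2
      · exact absurd h n3
      · exact absurd h n4
    have := card_le_card hsub
    omega
  have h3 := card_le_card h1
  have h4 := card_le_card h2
  have h6 := card_union_le (M2 ∪ Sp ∪ M2.image π) En
  have h7 := card_union_le (M2 ∪ Sp) (M2.image π)
  have h8 := card_union_le M2 Sp
  have h9 : (M2.image π).card ≤ M2.card := card_image_le
  omega

/-- The surgery inside one part `U` with at least two children. -/
theorem step_two (hd : PM d) {t δ r lam' : ℝ} (ht : 0 < t) (hδ : 0 < δ) (hδ1 : δ ≤ 1)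
    (hr : 4 * r ≤ δ * t) (hlam : lam ≤ 48 * t) (hl1 : lam ≤ lam') (hl2 : 2 * t ≤ lam')
    (U : Finset V) (hU : U.Nonempty) (L : V → V) (net : V → Finset V × ℝ)
    (hnet : ∀ v ∈ U, Tr d lam (net (L v)).1 (net (L v)).2)
    (hcov : ∀ v ∈ U, ∃ x ∈ (net (L v)).1, d v x ≤ r)
    (N : Finset V) (hNU : N ⊆ U) (hsep : ∀ p ∈ N, ∀ q ∈ N, p ≠ q → δ * t ≤ d p q)
    (hpt : ∀ p ∈ N, ∃ y ∈ U, d p y ≤ t ∧ L p ≠ L y) (K : Finset (V × V × ℝ))
    (hK : ∀ k ∈ K, k.1 ∈ U ∧ k.2.1 ∈ U ∧ L k.1 ≠ L k.2.1 ∧ d k.1 k.2.1 ≤ k.2.2 ∧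
      k.2.2 + 2 * r ≤ lam')
    (hKc : ∀ T : V → Prop, (∀ k ∈ K, (T (L k.1) ↔ T (L k.2.1))) →
      ∀ u ∈ U, ∀ v ∈ U, T (L u) → T (L v)) :
    ∃ (S : Finset V) (c : ℝ), Tr d lam' S c ∧ (∀ v ∈ U, ∃ x ∈ S, d v x ≤ r + 146 * t) ∧
      c + δ * t * N.card / 576 ≤ ∑ g ∈ U.image L, (net g).2 + ∑ k ∈ K, k.2.2 +
        105 * t * K.card + 48 * t * ((U.image L).card + 1) := by
  classical
  have hδt : δ * t ≤ t := by nlinarith
  have hδt0 : 0 < δ * t := by positivity
  set C := U.image L with hC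
  have hnetC : ∀ g ∈ C, Tr d lam (net g).1 (net g).2 := by
    intro g hg
    obtain ⟨v, hv, rfl⟩ := mem_image.1 hg
    exact hnet v hv
  choose! Bf rf hrf hBf hsum hBc hlk using fun g (hg : g ∈ C) =>
    (hnetC g hg).part hd (a := 48 * t) (by positivity) hlam
  set B : Finset (Σ _ : V, Finset V × ℝ) := C.sigma Bf with hB
  have : Nonempty (Σ _ : V, Finset V × ℝ) := ⟨⟨hU.choose, ∅, 0⟩⟩
  have : Nonempty V := ⟨hU.choose⟩
  have hhome : ∀ v ∈ U, ∃ b ∈ B, b.1 = L v ∧ ∃ x ∈ b.2.1, d v x ≤ r := by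
    intro v hv
    obtain ⟨x, hx, hvx⟩ := hcov v hv
    obtain ⟨b, hb, hxb⟩ := hBc _ (mem_image_of_mem L hv) x hx
    exact ⟨⟨L v, b⟩, mem_sigma.2 ⟨mem_image_of_mem L hv, hb⟩, rfl, x, hxb, hvx⟩
  choose! home hhB hhL nr hnr hnrd using hhome
  choose! pt hptU hptd hptL using hpt
  have hBT : ∀ b ∈ B, Tr d lam b.2.1 b.2.2 ∧ b.2.2 < 3 * (48 * t) ∧
      (b.2 ≠ rf b.1 → 48 * t ≤ b.2.2) := fun b hb =>
    hBf _ (mem_sigma.1 hb).1 _ (mem_sigma.1 hb).2
  set M := N.image home with hM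
  have hMB : M ⊆ B := by
    intro b hb
    obtain ⟨p, hp, rfl⟩ := mem_image.1 hb
    exact hhB p (hNU hp)
  have hsrc : ∀ b ∈ M, ∃ p ∈ N, home p = b := fun b hb => mem_image.1 hb
  choose! src hsN hsh using hsrc
  -- many source pieces
  have hNM : δ * t * N.card ≤ 1152 * t * M.card := by
    have h1 : N.card = ∑ b ∈ M, (N.filter fun p => home p = b).card :=
      card_eq_sum_card_image home N
    have h2 : ∀ b ∈ M, δ * t * ((N.filter fun p => home p = b).card : ℝ) ≤ 1152 * t := by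
      intro b hb
      by_cases h : 1 < (N.filter fun p => home p = b).card
      · have h3 := (hBT b (hMB hb)).1.sep_card_two hd (N.filter fun p => home p = b) nr
          (σ := δ * t / 2) (by positivity) (by
            intro p hp q hq hne
            have hp' := (mem_filter.1 hp).1
            have hq' := (mem_filter.1 hq).1
            have a1 := hsep p hp' q hq' hne
            have a2 := hnrd p (hNU hp')
            have a3 := hnrd q (hNU hq')
            have a4 := hd.tri p (nr p) q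
            have a5 := hd.tri (nr p) (nr q) q
            rw [hd.symm (nr q) q] at a5
            linarith) (by
            intro p hp
            have := hnr p (hNU (mem_filter.1 hp).1)
            rwa [(mem_filter.1 hp).2] at this) h
        have := (hBT b (hMB hb)).2.1
        linarith
      · have h3 : ((N.filter fun p => home p = b).card : ℝ) ≤ 1 := by exact_mod_cast not_lt.1 h
        nlinarith
    rw [h1]
    push_cast
    rw [mul_sum]
    refine (sum_le_card_nsmul _ _ _ h2).trans ?_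
    rw [nsmul_eq_mul]; linarith
  let F : (Σ _ : V, Finset V × ℝ) → (Σ _ : V, Finset V × ℝ) → Prop :=
    fun a b => a ≠ b ∧ a.1 = b.1 ∧ (a.2.1 ∩ b.2.1).Nonempty
  let π : (Σ _ : V, Finset V × ℝ) → (Σ _ : V, Finset V × ℝ) := fun b => home (pt (src b))
  set M2 := M.filter fun a => 2 ≤ (B.filter (F a)).card with hM2
  let e1 : (Σ _ : V, Finset V × ℝ) ⊕ (V × V × ℝ) → (Σ _ : V, Finset V × ℝ) :=
    Sum.elim id fun k => home k.1
  let e2 : (Σ _ : V, Finset V × ℝ) ⊕ (V × V × ℝ) → (Σ _ : V, Finset V × ℝ) :=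
    Sum.elim π fun k => home k.2.1
  let w : (Σ _ : V, Finset V × ℝ) ⊕ (V × V × ℝ) → ℝ :=
    Sum.elim (fun _ => 2 * t) fun k => k.2.2 + 2 * r
  let adj : (Σ _ : V, Finset V × ℝ) → (Σ _ : V, Finset V × ℝ) → Prop := fun a b =>
    F a b ∨ ∃ k ∈ M2.disjSum K, (a = e1 k ∧ b = e2 k) ∨ (a = e2 k ∧ b = e1 k)
  have hlink : ∀ a ∈ M, a.1 ≠ (π a).1 ∧ π a ∈ B ∧ ∃ x ∈ a.2.1, ∃ y ∈ (π a).2.1, d x y ≤ 2 * t := by
    intro a ha
    have hp := hsN a ha
    have hpU := hNU hp
    refine ⟨?_, hhB _ (hptU _ hp), nr (src a), ?_, nr (pt (src a)), hnr _ (hptU _ hp), ?_⟩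
    · have h1 := hhL _ hpU
      rw [hsh a ha] at h1
      rw [h1, hhL _ (hptU _ hp)]
      exact hptL _ hp
    · have := hnr _ hpU
      rwa [hsh a ha] at this
    · have a1 := hnrd _ hpU
      have a2 := hnrd _ (hptU _ hp)
      have a3 := hptd _ hp
      have a4 := hd.tri (nr (src a)) (src a) (nr (pt (src a)))
      have a5 := hd.tri (src a) (pt (src a)) (nr (pt (src a)))
      rw [hd.symm (nr (src a)) (src a)] at a4
      linarith
  set En := K.image (fun k => home k.1) ∪ K.image (fun k => home k.2.1) with hEn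
  have hEnB : En ⊆ B := by
    intro b hb
    rcases mem_union.1 hb with hb | hb <;> obtain ⟨k, hk, rfl⟩ := mem_image.1 hb
    · exact hhB _ (hK k hk).1
    · exact hhB _ (hK k hk).2.1
  have hEnc : En.card ≤ 2 * K.card := by
    have h1 := card_union_le (K.image (fun k => home k.1)) (K.image (fun k => home k.2.1))
    have h2 : (K.image (fun k => home k.1)).card ≤ K.card := card_image_le
    have h3 : (K.image (fun k => home k.2.1)).card ≤ K.card := card_image_le
    rw [hEn]; omega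
  obtain ⟨D, hDB, hkeep, hT, hdom, hcard⟩ := grow_net (lam := lam') hd (by linarith) B
    ⟨_, hhB _ hU.choose_spec⟩ (fun b => b.2.1) (fun b => b.2.2)
    (fun b hb => (hBT b hb).1.mono_lam hl1) F
    (fun a b h => ⟨h.1.symm, h.2.1.symm, by rw [inter_comm]; exact h.2.2⟩)
    (fun a h => h.1 rfl) (fun a b h => h.2.2) (M2.disjSum K) e1 e2 w
    (by
      rintro (a | k) hk
      · obtain ⟨h1, -, h3⟩ := hlink a (mem_filter.1 (inl_mem_disjSum.1 hk)).1
        exact ⟨fun e => h1 (congrArg Sigma.fst e), hl2, h3⟩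
      · obtain ⟨h1, h2, h3, h4, h5⟩ := hK k (inr_mem_disjSum.1 hk)
        refine ⟨fun e => h3 ?_, h5, nr k.1, hnr _ h1, nr k.2.1, hnr _ h2, ?_⟩
        · rw [← hhL _ h1, ← hhL _ h2]
          exact congrArg Sigma.fst e
        · have a1 := hnrd _ h1
          have a2 := hnrd _ h2
          have a4 := hd.tri (nr k.1) k.1 (nr k.2.1)
          have a5 := hd.tri k.1 k.2.1 (nr k.2.1)
          rw [hd.symm (nr k.1) k.1] at a4
          show d _ _ ≤ k.2.2 + 2 * r
          linarith)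
    adj (fun _ _ => Iff.rfl)
    (by
      intro D hD hne hneq
      by_cases hmix : ∃ a ∈ D, ∃ b ∈ B, b ∉ D ∧ a.1 = b.1
      · obtain ⟨⟨g, a⟩, ha, ⟨g', b⟩, hb, hbD, e⟩ := hmix
        simp only at e
        subst e
        have hg : g ∈ C := (mem_sigma.1 hb).1
        obtain ⟨a', ha', b', hb', hb'D, hi⟩ := hlk g hg ((Bf g).filter fun z => ⟨g, z⟩ ∈ D)
          (filter_subset _ _) ⟨a, mem_filter.2 ⟨(mem_sigma.1 (hD ha)).2, ha⟩⟩
          (fun e => hbD (mem_filter.1 (e.symm ▸ (mem_sigma.1 hb).2 :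
            b ∈ (Bf g).filter fun z => ⟨g, z⟩ ∈ D)).2)
        have hb'D' : (⟨g, b'⟩ : Σ _ : V, Finset V × ℝ) ∉ D := fun h => hb'D (mem_filter.2 ⟨hb', h⟩)
        refine ⟨⟨g, a'⟩, (mem_filter.1 ha').2, ⟨g, b'⟩, mem_sigma.2 ⟨hg, hb'⟩, hb'D',
          Or.inl ⟨fun e => hb'D' (e ▸ (mem_filter.1 ha').2), rfl, hi⟩⟩
      · push Not at hmix
        by_contra hno
        push Not at hno
        obtain ⟨a, ha⟩ := hne
        obtain ⟨b, hb, hbD⟩ := exists_of_ssubset (ssubset_of_ne_of_subset hneq hD)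
        obtain ⟨u, hu, hua⟩ := mem_image.1 (mem_sigma.1 (hD ha)).1
        obtain ⟨v, hv, hvb⟩ := mem_image.1 (mem_sigma.1 hb).1
        have hTD : ∀ z ∈ U, (∃ a ∈ D, a.1 = L z) ↔ home z ∈ D := by
          intro z hz
          refine ⟨fun ⟨a', ha', e⟩ => ?_, fun h => ⟨_, h, hhL z hz⟩⟩
          by_contra hn
          exact hmix a' ha' _ (hhB z hz) hn (e.trans (hhL z hz).symm)
        obtain ⟨a', ha', e⟩ := hKc (fun g => ∃ a ∈ D, a.1 = g) (by
          intro k hk
          obtain ⟨h1, h2, -⟩ := hK k hk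
          rw [hTD _ h1, hTD _ h2]
          constructor <;> intro h <;> by_contra hn
          · exact hno _ h _ (hhB _ h2) hn
              (Or.inr ⟨Sum.inr k, inr_mem_disjSum.2 hk, Or.inl ⟨rfl, rfl⟩⟩)
          · exact hno _ h _ (hhB _ h1) hn
              (Or.inr ⟨Sum.inr k, inr_mem_disjSum.2 hk, Or.inr ⟨rfl, rfl⟩⟩)) u hu v hv
          ⟨a, ha, hua.symm⟩
        exact hmix a' ha' b hb hbD (e.trans hvb))
    En hEnB
  have hsp := count_special B M En hMB F π
    (fun a ha => ⟨(hlink a ha).2.1, fun h => (hlink a ha).1 h.2.1⟩) adj (fun a b h => Or.inl h)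
    (fun a ha h2 => Or.inr ⟨Sum.inl a, inl_mem_disjSum.2 (mem_filter.2 ⟨ha, h2⟩),
      Or.inl ⟨rfl, rfl⟩⟩)
    (by
      rintro a b (h | ⟨a' | k, hk, ⟨rfl, -⟩ | ⟨rfl, -⟩⟩)
      · exact Or.inl h
      · exact Or.inr (Or.inl (mem_filter.1 (inl_mem_disjSum.1 hk)).2)
      · exact Or.inr (Or.inr (Or.inl (mem_image_of_mem π (inl_mem_disjSum.1 hk))))
      · exact Or.inr (Or.inr (Or.inr (mem_union_left _
          (mem_image_of_mem _ (inr_mem_disjSum.1 hk)))))
      · exact Or.inr (Or.inr (Or.inr (mem_union_right _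
          (mem_image_of_mem _ (inr_mem_disjSum.1 hk))))))
  refine ⟨_, _, hT, ?_, ?_⟩
  · intro v hv
    by_cases hD : home v ∈ D
    · exact ⟨nr v, mem_biUnion.2 ⟨_, hD, hnr v hv⟩, by linarith [hnrd v hv]⟩
    · obtain ⟨a, ha, hab⟩ := hdom _ (hhB v hv) hD
      have hbr : ∃ x ∈ (home v).2.1, ∃ y ∈ a.2.1, d x y ≤ 2 * t := by
        rcases hab with h | ⟨a' | k, hk, ⟨h1, h2⟩ | ⟨h1, h2⟩⟩
        · obtain ⟨x, hx⟩ := h.2.2
          rw [mem_inter] at hx
          exact ⟨x, hx.2, x, hx.1, by rw [hd.refl]; linarith⟩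
        · obtain ⟨-, -, x, hx, y, hy, hxy⟩ := hlink a' (mem_filter.1 (inl_mem_disjSum.1 hk)).1
          rw [h1, h2]
          exact ⟨y, hy, x, hx, by rwa [hd.symm]⟩
        · obtain ⟨-, -, x, hx, y, hy, hxy⟩ := hlink a' (mem_filter.1 (inl_mem_disjSum.1 hk)).1
          rw [h1, h2]
          exact ⟨x, hx, y, hy, hxy⟩
        · exact absurd (hkeep (h2 ▸ mem_union_right _
            (mem_image_of_mem _ (inr_mem_disjSum.1 hk)))) hD
        · exact absurd (hkeep (h2 ▸ mem_union_left _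
            (mem_image_of_mem _ (inr_mem_disjSum.1 hk)))) hD
      obtain ⟨x, hx, y, hy, hxy⟩ := hbr
      refine ⟨y, mem_biUnion.2 ⟨a, ha, hy⟩, ?_⟩
      have a1 := hnrd v hv
      have a2 := (hBT _ (hhB v hv)).1.diam hd _ (hnr v hv) _ hx
      have a3 := (hBT _ (hhB v hv)).2.1
      have a4 := hd.tri v (nr v) y
      have a5 := hd.tri (nr v) x y
      linarith
  · set Rt : Finset (Σ _ : V, Finset V × ℝ) := C.image fun g => ⟨g, rf g⟩ with hRt
    have c1 : ∑ b ∈ B, b.2.2 ≤ ∑ g ∈ C, (net g).2 := by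
      rw [hB, sum_sigma]
      exact sum_le_sum fun g hg => hsum g hg
    have c2 : ∑ b ∈ B \ D, b.2.2 + ∑ b ∈ D, b.2.2 = ∑ b ∈ B, b.2.2 := sum_sdiff hDB
    have c3 : ∑ b ∈ (B \ D) \ Rt, b.2.2 ≤ ∑ b ∈ B \ D, b.2.2 :=
      sum_le_sum_of_subset_of_nonneg sdiff_subset fun b hb _ =>
        (hBT b (mem_sdiff.1 hb).1).1.cost_nonneg hd
    have c4 : (((B \ D) \ Rt).card : ℝ) * (48 * t) ≤ ∑ b ∈ (B \ D) \ Rt, b.2.2 := by
      rw [← nsmul_eq_mul]
      refine card_nsmul_le_sum _ _ _ fun b hb => ?_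
      obtain ⟨hb1, hb2⟩ := mem_sdiff.1 hb
      have hbB := (mem_sdiff.1 hb1).1
      refine (hBT b hbB).2.2 fun e => hb2 (mem_image.2 ⟨b.1, (mem_sigma.1 hbB).1, ?_⟩)
      rw [← e]
    have c5 : (B \ D).card ≤ ((B \ D) \ Rt).card + C.card := by
      have h1 := le_card_sdiff Rt (B \ D)
      have h2 : Rt.card ≤ C.card := card_image_le
      omega
    have c6 : M.card ≤ 12 * (((B \ D) \ Rt).card + C.card) + 26 * K.card + 12 := by omega
    have c7 : (M.card : ℝ) ≤ 12 * (((B \ D) \ Rt).card + C.card) + 26 * K.card + 12 := by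
      exact_mod_cast c6
    have c8 : ∑ k ∈ M2.disjSum K, w k = M2.card * (2 * t) + (∑ k ∈ K, k.2.2 + K.card * (2 * r)) := by
      rw [sum_disjSum]
      simp [w, sum_add_distrib]
    have c9 : (M2.card : ℝ) ≤ M.card := by exact_mod_cast card_filter_le _ _
    have c10 : (K.card : ℝ) * (2 * r) ≤ K.card * t :=
      mul_le_mul_of_nonneg_left (by linarith) (Nat.cast_nonneg _)
    have c11 := mul_le_mul_of_nonneg_left c7 ht.le
    have c12 := mul_le_mul_of_nonneg_left c9 ht.le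
    rw [c8]
    nlinarith

end Crest.Agent.X37.St
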