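import Mathlib

/-!
# Row 37, Steiner potential: networks `Tr`, gluing, diameter, partition into pieces
-/

set_option autoImplicit false

namespace Crest.Agent.X37.St

open Finset

variable {V : Type*} [DecidableEq V]

/-- `d` is a pseudometric. -/
structure PM (d : V → V → ℝ) : Prop where
  refl : ∀ u, d u u = 0
  symm : ∀ u v, d u v = d v u
  tri : ∀ u v w, d u w ≤ d u v + d v w

omit [DecidableEq V] in
theorem PM.nonneg {d : V → V → ℝ} (h : PM d) (u v : V) : 0 ≤ d u v := by
  have h1 := h.tri u v u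
  rw [h.refl, h.symm v u] at h1
  linarith

/-- `Tr d lam S c`: the points of `S` are joined by a tree of total cost at most `c` whose links
have length at most `lam`. -/
inductive Tr (d : V → V → ℝ) (lam : ℝ) : Finset V → ℝ → Prop
  | single (v : V) (c : ℝ) (hc : 0 ≤ c) : Tr d lam {v} c
  | leaf {S : Finset V} {c : ℝ} (h : Tr d lam S c) {x y : V} (hx : x ∈ S) (hy : y ∉ S) (l : ℝ)
      (hd : d x y ≤ l) (hl : l ≤ lam) : Tr d lam (insert y S) (c + l)

variable {d : V → V → ℝ} {lam : ℝ}

theorem Tr.nonempty {S : Finset V} {c : ℝ} (h : Tr d lam S c) : S.Nonempty := by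
  cases h with
  | single v c hc => exact singleton_nonempty v
  | leaf h hx hy l hd hl => exact insert_nonempty _ _

theorem Tr.mono {S : Finset V} {c : ℝ} (h : Tr d lam S c) {c' : ℝ} (hc : c ≤ c') :
    Tr d lam S c' := by
  induction h generalizing c' with
  | single v c hc0 => exact Tr.single v c' (hc0.trans hc)
  | @leaf S c h x y hx hy l hd hl ih =>
    have := Tr.leaf (ih (c' := c' - l) (by linarith)) hx hy l hd hl
    simpa using this

theorem Tr.mono_lam {S : Finset V} {c : ℝ} (h : Tr d lam S c) {lam' : ℝ} (hl' : lam ≤ lam') :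
    Tr d lam' S c := by
  induction h with
  | single v c hc0 => exact Tr.single v c hc0
  | leaf h hx hy l hd hl ih => exact Tr.leaf ih hx hy l hd (hl.trans hl')

theorem Tr.cost_nonneg (hd : PM d) {S : Finset V} {c : ℝ} (h : Tr d lam S c) : 0 ≤ c := by
  induction h with
  | single v c hc0 => exact hc0
  | @leaf S c h x y hx hy l hxy hl ih => have := hd.nonneg x y; linarith

theorem Tr.ins (hd : PM d) {S : Finset V} {c : ℝ} (h : Tr d lam S c) {x : V} (hx : x ∈ S) (y : V)
    {l : ℝ} (hxy : d x y ≤ l) (hl : l ≤ lam) : Tr d lam (insert y S) (c + l) := by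
  by_cases hy : y ∈ S
  · rw [insert_eq_of_mem hy]
    exact h.mono (by have := hd.nonneg x y; linarith)
  · exact Tr.leaf h hx hy l hxy hl

theorem Tr.glue (hd : PM d) {S' : Finset V} {c' : ℝ} (h' : Tr d lam S' c') :
    ∀ {S : Finset V} {c : ℝ} (_ : Tr d lam S c) {x y : V} (_ : x ∈ S) (_ : y ∈ S') {l : ℝ}
      (_ : d x y ≤ l) (_ : l ≤ lam), Tr d lam (S ∪ S') (c + c' + l) := by
  induction h' with
  | single v c0 hc0 =>
    intro S c h x y hx hy l hxy hl
    rw [mem_singleton] at hy
    subst hy
    have := (h.ins hd hx y hxy hl).mono (c' := c + c0 + l) (by linarith)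
    rwa [insert_eq, union_comm] at this
  | @leaf S' c' h' w z hw hz l' hwz hl' ih =>
    intro S c h x y hx hy l hxy hl
    rcases mem_insert.1 hy with rfl | hy'
    · have h1 := h.ins hd hx y hxy hl
      have h2 := ih h1 (mem_insert_self y S) hw (l := l') (by rw [hd.symm]; exact hwz) hl'
      have e : insert y S ∪ S' = S ∪ insert y S' := by
        ext u; simp only [mem_union, mem_insert]; tauto
      rw [e] at h2
      exact h2.mono (by linarith)
    · have h1 := ih h hx hy' hxy hl
      have h2 := h1.ins hd (mem_union_right S hw) z hwz hl'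
      have e : insert z (S ∪ S') = S ∪ insert z S' := by
        ext u; simp only [mem_union, mem_insert]; tauto
      rw [e] at h2
      exact h2.mono (by linarith)

theorem Tr.diam (hd : PM d) {S : Finset V} {c : ℝ} (h : Tr d lam S c) :
    ∀ u ∈ S, ∀ v ∈ S, d u v ≤ c := by
  induction h with
  | single v c hc0 =>
    intro u hu w hw
    rw [mem_singleton] at hu hw
    subst hu hw
    rw [hd.refl]; exact hc0
  | @leaf S c h x y hx hy l hxy hl ih =>
    have hc := h.cost_nonneg hd
    have hl0 : 0 ≤ l := (hd.nonneg x y).trans hxy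
    intro u hu w hw
    rcases mem_insert.1 hu with rfl | hu' <;> rcases mem_insert.1 hw with rfl | hw'
    · rw [hd.refl]; linarith
    · have := hd.tri u x w
      have := ih x hx w hw'
      rw [hd.symm] at hxy
      linarith
    · have := hd.tri u x w
      have := ih u hu' x hx
      linarith
    · have := ih u hu' w hw'
      linarith

/-- A family of pieces is linked: every nonempty proper subfamily has a member meeting a piece
outside the subfamily. -/
def Linked (B : Finset (Finset V × ℝ)) : Prop :=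
  ∀ D ⊆ B, D.Nonempty → D ≠ B → ∃ b ∈ D, ∃ b' ∈ B, b' ∉ D ∧ (b.1 ∩ b'.1).Nonempty

theorem Linked.ins {B : Finset (Finset V × ℝ)} (h : Linked B) {b0 b1 : Finset V × ℝ}
    (hb1 : b1 ∈ B) (h01 : (b0.1 ∩ b1.1).Nonempty) : Linked (insert b0 B) := by
  classical
  intro D hD hne hneq
  by_cases hb0B : b0 ∈ B
  · rw [insert_eq_of_mem hb0B] at hD hneq ⊢
    exact h D hD hne hneq
  by_cases h0 : b0 ∈ D
  · by_cases h1 : b1 ∈ D
    · have hsub : D.erase b0 ⊆ B := by
        intro b hb
        rcases mem_insert.1 (hD (mem_of_mem_erase hb)) with rfl | hb'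
        · simp at hb
        · exact hb'
      have hne' : (D.erase b0).Nonempty :=
        ⟨b1, mem_erase.2 ⟨fun e => hb0B (e ▸ hb1), h1⟩⟩
      have hneq' : D.erase b0 ≠ B := by
        intro e
        apply hneq
        rw [← e, insert_erase h0]
      obtain ⟨b, hb, b', hb', hb'D, hi⟩ := h _ hsub hne' hneq'
      refine ⟨b, mem_of_mem_erase hb, b', mem_insert_of_mem hb', fun hh => hb'D ?_, hi⟩
      exact mem_erase.2 ⟨fun e => hb0B (e ▸ hb'), hh⟩
    · exact ⟨b0, h0, b1, mem_insert_of_mem hb1, h1, h01⟩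
  · have hsub : D ⊆ B := by
      intro b hb
      rcases mem_insert.1 (hD hb) with rfl | hb'
      · exact absurd hb h0
      · exact hb'
    by_cases hDB : D = B
    · subst hDB
      exact ⟨b1, hb1, b0, mem_insert_self _ _, h0, by rwa [inter_comm]⟩
    · obtain ⟨b, hb, b', hb', hb'D, hi⟩ := h D hsub hne hDB
      exact ⟨b, hb, b', mem_insert_of_mem hb', hb'D, hi⟩

theorem linked_singleton (b : Finset V × ℝ) : Linked ({b} : Finset (Finset V × ℝ)) := by
  intro D hD hne hneq
  rcases subset_singleton_iff.1 hD with rfl | rfl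
  · exact absurd hne not_nonempty_empty
  · exact absurd rfl hneq

/-- Partition with pending pieces. -/
theorem Tr.part_aux (hd : PM d) {a : ℝ} (ha : 0 < a) (hlam : lam ≤ a)
    {S : Finset V} {c : ℝ} (h : Tr d lam S c) :
    ∀ (pd : V → Finset V × ℝ), (∀ v ∈ S, v ∈ (pd v).1 ∧ Tr d lam (pd v).1 (pd v).2 ∧ (pd v).2 < a) →
      ∃ (B : Finset (Finset V × ℝ)) (r : Finset V × ℝ), r ∈ B ∧
        (∀ b ∈ B, Tr d lam b.1 b.2 ∧ b.2 < 3 * a ∧ (b ≠ r → a ≤ b.2)) ∧
        (∑ b ∈ B, b.2 ≤ c + ∑ v ∈ S, (pd v).2) ∧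
        (∀ v ∈ S, ∃ b ∈ B, (pd v).1 ⊆ b.1) ∧ Linked B := by
  classical
  induction h with
  | single v c hc0 =>
    intro pd hpd
    obtain ⟨h1, h2, h3⟩ := hpd v (mem_singleton_self v)
    refine ⟨{pd v}, pd v, mem_singleton_self _, ?_, ?_, ?_, linked_singleton _⟩
    · intro b hb
      rw [mem_singleton] at hb
      subst hb
      exact ⟨h2, by linarith, fun hh => absurd rfl hh⟩
    · simp only [sum_singleton]; linarith
    · intro u hu
      rw [mem_singleton] at hu
      subst hu
      exact ⟨_, mem_singleton_self _, Subset.rfl⟩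
  | @leaf S c h x y hx hy l hxy hl ih =>
    intro pd hpd
    obtain ⟨hx1, hx2, hx3⟩ := hpd x (mem_insert_of_mem hx)
    obtain ⟨hy1, hy2, hy3⟩ := hpd y (mem_insert_self _ _)
    set m : Finset V × ℝ := ((pd x).1 ∪ (pd y).1, (pd x).2 + (pd y).2 + l) with hm
    have hmT : Tr d lam m.1 m.2 := hy2.glue hd hx2 hx1 hy1 hxy hl
    have hxm : x ∈ m.1 := mem_union_left _ hx1
    have hsum : ∀ q : Finset V × ℝ, ∑ v ∈ S, (Function.update pd x q v).2 =
        ∑ v ∈ S, (pd v).2 - (pd x).2 + q.2 := by
      intro q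
      rw [← add_sum_erase S _ hx, ← add_sum_erase S (fun v => (pd v).2) hx]
      have : ∑ v ∈ S.erase x, (Function.update pd x q v).2 = ∑ v ∈ S.erase x, (pd v).2 :=
        sum_congr rfl fun v hv => by rw [Function.update_of_ne (ne_of_mem_erase hv)]
      rw [this, Function.update_self]; ring
    by_cases hma : m.2 < a
    · obtain ⟨B, r, hr, hB, hs, hcov, hlk⟩ := ih (Function.update pd x m) (by
        intro v hv
        by_cases hvx : v = x
        · subst hvx
          rw [Function.update_self]
          exact ⟨hxm, hmT, hma⟩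
        · rw [Function.update_of_ne hvx]
          exact hpd v (mem_insert_of_mem hv))
      refine ⟨B, r, hr, hB, ?_, ?_, hlk⟩
      · rw [hsum] at hs
        rw [sum_insert hy]
        simp only [hm] at hs
        linarith
      · obtain ⟨bx, hbx, hbx'⟩ := hcov x hx
        rw [Function.update_self] at hbx'
        intro v hv
        rcases mem_insert.1 hv with rfl | hv'
        · exact ⟨bx, hbx, subset_union_right.trans hbx'⟩
        · by_cases hvx : v = x
          · subst hvx
            exact ⟨bx, hbx, subset_union_left.trans hbx'⟩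
          · obtain ⟨b, hb, hb'⟩ := hcov v hv'
            rw [Function.update_of_ne hvx] at hb'
            exact ⟨b, hb, hb'⟩
    · obtain ⟨B, r, hr, hB, hs, hcov, hlk⟩ := ih (Function.update pd x ({x}, 0)) (by
        intro v hv
        by_cases hvx : v = x
        · subst hvx
          rw [Function.update_self]
          exact ⟨mem_singleton_self _, Tr.single _ _ le_rfl, ha⟩
        · rw [Function.update_of_ne hvx]
          exact hpd v (mem_insert_of_mem hv))
      obtain ⟨bx, hbx, hbx'⟩ := hcov x hx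
      rw [Function.update_self] at hbx'
      have hxb : x ∈ bx.1 := hbx' (mem_singleton_self x)
      refine ⟨insert m B, r, mem_insert_of_mem hr, ?_, ?_, ?_,
        hlk.ins hbx ⟨x, mem_inter.2 ⟨hxm, hxb⟩⟩⟩
      · intro b hb
        rcases mem_insert.1 hb with rfl | hb'
        · refine ⟨hmT, ?_, fun _ => not_lt.1 hma⟩
          simp only [hm]; linarith
        · exact hB b hb'
      · rw [hsum] at hs
        rw [sum_insert hy]
        have h1 : ∑ b ∈ insert m B, b.2 ≤ m.2 + ∑ b ∈ B, b.2 := by
          by_cases hmB : m ∈ B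
          · rw [insert_eq_of_mem hmB]
            have := hmT.cost_nonneg hd
            linarith
          · rw [sum_insert hmB]
        simp only [hm] at h1 hs ⊢
        linarith
      · intro v hv
        rcases mem_insert.1 hv with rfl | hv'
        · exact ⟨m, mem_insert_self _ _, subset_union_right⟩
        · by_cases hvx : v = x
          · subst hvx
            exact ⟨m, mem_insert_self _ _, subset_union_left⟩
          · obtain ⟨b, hb, hb'⟩ := hcov v hv'
            rw [Function.update_of_ne hvx] at hb'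
            exact ⟨b, mem_insert_of_mem hb, hb'⟩

/-- Partition of a network into linked pieces of cost in `[a, 3a)`, one exception `r`. -/
theorem Tr.part (hd : PM d) {a : ℝ} (ha : 0 < a) (hlam : lam ≤ a)
    {S : Finset V} {c : ℝ} (h : Tr d lam S c) :
    ∃ (B : Finset (Finset V × ℝ)) (r : Finset V × ℝ), r ∈ B ∧
      (∀ b ∈ B, Tr d lam b.1 b.2 ∧ b.2 < 3 * a ∧ (b ≠ r → a ≤ b.2)) ∧
      (∑ b ∈ B, b.2 ≤ c) ∧ (∀ v ∈ S, ∃ b ∈ B, v ∈ b.1) ∧ Linked B := by
  obtain ⟨B, r, hr, hB, hs, hcov, hlk⟩ := h.part_aux hd ha hlam (fun v => ({v}, 0))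
    (fun v _ => ⟨mem_singleton_self v, Tr.single _ _ le_rfl, ha⟩)
  refine ⟨B, r, hr, hB, by simpa using hs, fun v hv => ?_, hlk⟩
  obtain ⟨b, hb, hb'⟩ := hcov v hv
  exact ⟨b, hb, hb' (mem_singleton_self v)⟩

/-- A network of cost `c` with links at most `a` holds at most `c / a + 1` points that are
`3a`-separated. -/
theorem Tr.sep_card (hd : PM d) {a : ℝ} (ha : 0 < a) (hlam : lam ≤ a)
    {S : Finset V} {c : ℝ} (h : Tr d lam S c) {ι : Type*} (N : Finset ι) (f : ι → V)
    (hf : ∀ p ∈ N, f p ∈ S) (hsep : ∀ p ∈ N, ∀ q ∈ N, p ≠ q → 3 * a ≤ d (f p) (f q)) :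
    a * N.card ≤ c + a := by
  classical
  obtain ⟨B, r, hr, hB, hs, hcov, -⟩ := h.part hd ha hlam
  choose! g hgB hg using hcov
  have h1 : N.card ≤ B.card := by
    refine card_le_card_of_injOn (fun p => g (f p)) (fun p hp => hgB _ (hf p hp)) ?_
    intro p hp q hq hpq
    by_contra hne
    have h2 := hsep p hp q hq hne
    have hp' := hg _ (hf p hp)
    have hq' := hg _ (hf q hq)
    simp only at hpq
    rw [← hpq] at hq'
    obtain ⟨hT, hlt, -⟩ := hB _ (hgB _ (hf p hp))
    have := hT.diam hd _ hp' _ hq'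
    linarith
  have h2 : a * ((B.erase r).card : ℝ) ≤ ∑ b ∈ B.erase r, b.2 := by
    rw [mul_comm, ← nsmul_eq_mul]
    exact card_nsmul_le_sum _ _ _ fun b hb =>
      (hB b (mem_of_mem_erase hb)).2.2 (ne_of_mem_erase hb)
  have h3 := add_sum_erase B (fun b => b.2) hr
  have h4 : (B.card : ℝ) = (B.erase r).card + 1 := by
    rw [← card_erase_add_one hr]; push_cast; ring
  have h5 := (hB r hr).1.cost_nonneg hd
  have h6 : (N.card : ℝ) ≤ B.card := by exact_mod_cast h1
  have h7 : a * (N.card : ℝ) ≤ a * B.card := mul_le_mul_of_nonneg_left h6 ha.le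
  rw [h4] at h7
  linarith

end Crest.Agent.X37.St
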